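import Vale.Agent.P324.Good

/-! The dynamic programme. -/

namespace Vale.Agent.P324

open List

abbrev T3 := ℕ × ℕ × ℕ
abbrev Q4 := ℕ × T3
abbrev Par := T3 × Q4 × Q4 × Q4 × T3 × Q4 × T3
abbrev Ent := ℕ × List ℕ

def prodL {α β : Type} (l : List α) (r : List β) : List (α × β) :=
  l.flatMap fun a => r.map fun b => (a, b)

def tri (M : ℕ) : List T3 := prodL (range M) (prodL (range M) (range M))

def quad (M : ℕ) : List Q4 := prodL (range M) (tri M)

def pars (M : ℕ) : List Par :=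
  prodL (tri M) (prodL (quad M) (prodL (quad M) (prodL (quad M) (prodL (tri M)
    (prodL (quad M) (tri M))))))

def ltb (n : ℕ) (R : List ℕ) (u v : ℕ) : Bool :=
  Nat.ble (u + 1) n && (Nat.ble (v + 1) n && Nat.ble 1 (R.getD (u * n + v) 0))

def rkb (n : ℕ) (R : List ℕ) (v : ℕ) : ℕ := (range n).countP (fun u => ltb n R u v) * n + v

def inT (a : T3) (v : ℕ) : Bool := Nat.beq v a.1 || (Nat.beq v a.2.1 || Nat.beq v a.2.2)

def predT (n : ℕ) (R : List ℕ) (a : T3) (v : ℕ) : Bool :=
  ltb n R v a.1 || (ltb n R v a.2.1 || ltb n R v a.2.2)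

def succT (n : ℕ) (R : List ℕ) (a : T3) (v : ℕ) : Bool :=
  ltb n R a.1 v || (ltb n R a.2.1 v || ltb n R a.2.2 v)

def lay (n : ℕ) (R : List ℕ) (q : Q4) (t v : ℕ) : Bool :=
  (Nat.beq q.1 0 || predT n R q.2 v) && Nat.ble (rkb n R v + 1) t

def memb (n : ℕ) (R : List ℕ) (p : Par) (v : ℕ) : Bool :=
  inT p.1 v || ((lay n R p.2.1 p.2.2.2.2.1.1 v || (lay n R p.2.2.1 p.2.2.2.2.1.2.1 v ||
    lay n R p.2.2.2.1 p.2.2.2.2.1.2.2 v)) &&
    ((Nat.beq p.2.2.2.2.2.1.1 0 || succT n R p.2.2.2.2.2.1.2 v) && !succT n R p.2.2.2.2.2.2 v))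

def valid (n : ℕ) (R : List ℕ) (l : ℕ) (τ : List ℕ) : Bool :=
  ((range n).all fun v => Nat.ble (τ.getD v 0) l) &&
  (((range l).all fun t => Nat.ble ((range n).countP fun v => Nat.beq (τ.getD v 0) (t + 1)) 3) &&
  (range n).all fun u => (range n).all fun v => !ltb n R u v || (Nat.beq (τ.getD u 0) 0 ||
    (Nat.beq (τ.getD v 0) 0 || Nat.ble (τ.getD u 0 + 1) (τ.getD v 0))))

def fits (n : ℕ) (R : List ℕ) (p : Par) (τ : List ℕ) : Bool :=
  (range n).all fun v => cond (memb n R p v) (Nat.ble 1 (τ.getD v 0)) (Nat.beq (τ.getD v 0) 0)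

def merge (n l : ℕ) (τ1 τ2 : List ℕ) : List ℕ :=
  (range n).map fun v => cond (Nat.beq (τ1.getD v 0) 0)
    (cond (Nat.beq (τ2.getD v 0) 0) 0 (l + τ2.getD v 0)) (τ1.getD v 0)

def cands (n : ℕ) (R : List ℕ) (T : List Ent) (p : Par) : List (List ℕ) :=
  ((range n).map fun v => cond (memb n R p v) 1 0) ::
    T.flatMap fun e1 => T.map fun e2 => merge n e1.1 e1.2 e2.2

def fresh (n : ℕ) (R : List ℕ) (T : List Ent) (l : ℕ) : List Ent :=
  (pars (n * n + n + 2)).flatMap fun p =>
    (((cands n R T p).filter fun τ => valid n R l τ && fits n R p τ).take 1).map fun τ => (l, τ)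

def stepT (n : ℕ) (R : List ℕ) (T : List Ent) (k : ℕ) : List Ent := T ++ fresh n R T (k + 1)

def tab (n : ℕ) (R : List ℕ) (k : ℕ) : List Ent := (range k).foldl (stepT n R) []

def full (n : ℕ) (τ : List ℕ) : Bool := (range n).all fun v => Nat.ble 1 (τ.getD v 0)

def decT (n : ℕ) (T : List Ent) (c : ℕ) : Bool := T.any fun e => full n e.2 && Nat.ble e.1 c

def best (n : ℕ) (T : List Ent) : Ent :=
  (T.filter fun e => full n e.2 && T.all fun e' => !full n e'.2 || Nat.ble e.1 e'.1).getD 0 (0, [])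

theorem mem_prodL {α β : Type} {l : List α} {r : List β} {a : α} {b : β} :
    (a, b) ∈ prodL l r ↔ a ∈ l ∧ b ∈ r := by
  simp [prodL]

variable {n : ℕ} {R : List ℕ}

theorem ltb_bd {u v : ℕ} (h : ltb n R u v = true) : u < n ∧ v < n := by
  simp only [ltb, Bool.and_eq_true, Nat.ble_eq] at h
  omega

theorem countP_range (n : ℕ) (p : ℕ → Bool) :
    (range n).countP p = ((Finset.range n).filter (p · = true)).card := by
  rw [countP_eq_length_filter, ← List.toFinset_card_of_nodup ((nodup_range).filter _)]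
  congr 1
  ext
  simp

/-- The order read off from a transitive irreflexive table. -/
def mkOrd (n : ℕ) (R : List ℕ)
    (tr : ∀ u v w, ltb n R u v = true → ltb n R v w = true → ltb n R u w = true)
    (ir : ∀ u, ¬ ltb n R u u = true) : Ord where
  n := n
  lt u v := ltb n R u v = true
  rk := rkb n R
  N := n * n + n
  bd := ltb_bd
  tr := tr _ _ _
  mono := fun {u v} h => by
    have h1 : (range n).countP (fun x => ltb n R x u) < (range n).countP (fun x => ltb n R x v) := by
      rw [countP_range, countP_range]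
      refine Finset.card_lt_card ⟨fun x hx => ?_, fun hs => ?_⟩
      · rw [Finset.mem_filter] at hx ⊢
        exact ⟨hx.1, tr _ _ _ hx.2 h⟩
      · exact ir u (Finset.mem_filter.1 (hs (Finset.mem_filter.2
          ⟨Finset.mem_range.2 (ltb_bd h).1, h⟩))).2
    have := (ltb_bd h).1
    have := Nat.mul_le_mul_right n (Nat.succ_le_of_lt h1)
    simp only [rkb]
    rw [Nat.succ_mul] at this
    omega
  inj := fun {u v} hu hv h => by
    have := congrArg (· % n) h
    simpa [rkb, Nat.mod_eq_of_lt hu, Nat.mod_eq_of_lt hv] using this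
  top := fun {v} hv => by
    have h1 : (range n).countP (fun u => ltb n R u v) ≤ n := by
      simpa using countP_le_length (p := fun u => ltb n R u v) (l := range n)
    have := Nat.mul_le_mul_right n h1
    simp only [rkb]
    omega

theorem small_tri {A : Finset ℕ} (h3 : A.card ≤ 3) (hA : ∀ a ∈ A, a < n) :
    ∃ a ∈ tri (n * n + n + 2), ∀ v < n, v ∈ A ↔ v = a.1 ∨ v = a.2.1 ∨ v = a.2.2 := by
  have key : ∃ a b c, a ≤ n ∧ b ≤ n ∧ c ≤ n ∧ ∀ v < n, v ∈ A ↔ v = a ∨ v = b ∨ v = c := by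
    have : A.card = 0 ∨ A.card = 1 ∨ A.card = 2 ∨ A.card = 3 := by omega
    rcases this with h | h | h | h
    · rw [Finset.card_eq_zero] at h
      exact ⟨n, n, n, le_rfl, le_rfl, le_rfl, fun v hv => by simp [h]; omega⟩
    · obtain ⟨a, rfl⟩ := Finset.card_eq_one.1 h
      have := hA a (by simp)
      exact ⟨a, a, a, by omega, by omega, by omega, fun v hv => by simp⟩
    · obtain ⟨a, b, -, rfl⟩ := Finset.card_eq_two.1 h
      have := hA a (by simp)
      have := hA b (by simp)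
      exact ⟨a, b, b, by omega, by omega, by omega, fun v hv => by simp⟩
    · obtain ⟨a, b, c, -, -, -, rfl⟩ := Finset.card_eq_three.1 h
      have := hA a (by simp)
      have := hA b (by simp)
      have := hA c (by simp)
      exact ⟨a, b, c, by omega, by omega, by omega, fun v hv => by simp⟩
  obtain ⟨a, b, c, ha, hb, hc, h⟩ := key
  exact ⟨(a, b, c), by simp only [tri, mem_prodL, mem_range]; omega, h⟩

variable {tr : ∀ u v w, ltb n R u v = true → ltb n R v w = true → ltb n R u w = true}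
  {ir : ∀ u, ¬ ltb n R u u = true}

theorem small_ps {A : Finset ℕ} (h : (mkOrd n R tr ir).Small A) :
    ∃ a ∈ tri (n * n + n + 2), (∀ v < n, v ∈ A ↔ inT a v = true) ∧
      (∀ v, v ∈ (mkOrd n R tr ir).pred A ↔ predT n R a v = true) ∧
      ∀ v, v ∈ (mkOrd n R tr ir).succ A ↔ succT n R a v = true := by
  obtain ⟨a, ha, e⟩ := small_tri h.1 h.2
  refine ⟨a, ha, fun v hv => by simp [inT, e v hv], fun v => ⟨?_, fun g => ?_⟩,
    fun v => ⟨?_, fun g => ?_⟩⟩
  · rintro ⟨y, hy, g⟩
    change ltb n R v y = true at g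
    rcases (e y (ltb_bd g).2).1 hy with rfl | rfl | rfl <;> simp [predT, g]
  · simp only [predT, Bool.or_eq_true] at g
    rcases g with g | g | g <;> exact ⟨_, (e _ (ltb_bd g).2).2 (by simp), g⟩
  · rintro ⟨y, hy, g⟩
    change ltb n R y v = true at g
    rcases (e y (ltb_bd g).1).1 hy with rfl | rfl | rfl <;> simp [succT, g]
  · simp only [succT, Bool.or_eq_true] at g
    rcases g with g | g | g <;> exact ⟨_, (e _ (ltb_bd g).1).2 (by simp), g⟩

theorem isP_quad {P : Set ℕ} (h : (mkOrd n R tr ir).IsP P) :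
    ∃ q ∈ quad (n * n + n + 2), ∀ v, v ∈ P ↔ q.1 = 0 ∨ predT n R q.2 v = true := by
  rcases h with rfl | ⟨A, hA, rfl⟩
  · exact ⟨(0, 0, 0, 0), by simp [quad, tri, mem_prodL], by simp⟩
  · obtain ⟨a, ha, -, e, -⟩ := small_ps hA
    exact ⟨(1, a), by simp [quad, mem_prodL, ha], by simp [e]⟩

theorem isL_quad {P : Set ℕ} (h : (mkOrd n R tr ir).IsL P) :
    ∃ q ∈ quad (n * n + n + 2), ∀ v, v ∈ P ↔ q.1 = 0 ∨ succT n R q.2 v = true := by
  rcases h with rfl | ⟨A, hA, rfl⟩
  · exact ⟨(0, 0, 0, 0), by simp [quad, tri, mem_prodL], by simp⟩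
  · obtain ⟨a, ha, -, -, e⟩ := small_ps hA
    exact ⟨(1, a), by simp [quad, mem_prodL, ha], by simp [e]⟩

theorem fam_par {W : Finset ℕ} (h : (mkOrd n R tr ir).Fam W) :
    ∃ p ∈ pars (n * n + n + 2), ∀ v < n, v ∈ W ↔ memb n R p v = true := by
  obtain ⟨-, σ, L, Pi, B, ok, hL, hPi, hB, e⟩ := h
  obtain ⟨a, ha, ea, -, -⟩ := small_ps hPi
  obtain ⟨b, hb, -, -, eb⟩ := small_ps hB
  obtain ⟨q1, h1, e1⟩ := isP_quad ok.p1
  obtain ⟨q2, h2, e2⟩ := isP_quad ok.p2
  obtain ⟨q3, h3, e3⟩ := isP_quad ok.p3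
  obtain ⟨q4, h4, e4⟩ := isL_quad hL
  have l1 := ok.l1
  have l2 := ok.l2
  have l3 : σ.t3 ≤ n * n + n := ok.l3
  have ht : (σ.t1, σ.t2, σ.t3) ∈ tri (n * n + n + 2) := by
    simp only [tri, mem_prodL, mem_range]; omega
  refine ⟨(a, q1, q2, q3, (σ.t1, σ.t2, σ.t3), q4, b), by simp [pars, mem_prodL, *],
    fun v hv => ?_⟩
  rw [e v hv, ea v hv, eb, e4]
  simp only [Ord.S, Set.mem_setOf_eq, e1, e2, e3]
  simp [memb, lay, mkOrd, Nat.succ_le_iff]

def supp (n : ℕ) (τ : List ℕ) : Finset ℕ := (Finset.range n).filter (1 ≤ τ.getD · 0)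

theorem mem_supp {τ : List ℕ} {v : ℕ} : v ∈ supp n τ ↔ v < n ∧ 1 ≤ τ.getD v 0 := by
  rw [supp, Finset.mem_filter, Finset.mem_range]

theorem valid_iff {l : ℕ} {τ : List ℕ} :
    valid n R l τ = true ↔ (mkOrd n R tr ir).Sch (supp n τ) l (τ.getD · 0) := by
  simp only [valid, Bool.and_eq_true, all_eq_true, mem_range, Nat.ble_eq, countP_range,
    Bool.or_eq_true, Bool.not_eq_true', Nat.beq_eq]
  constructor
  · rintro ⟨h1, h2, h3⟩
    refine ⟨fun v hv => ⟨(mem_supp.1 hv).2, h1 v (mem_supp.1 hv).1⟩, fun u hu v hv e => ?_,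
      fun t => ?_⟩
    · rw [mem_supp] at hu hv
      change ltb n R u v = true at e
      rcases h3 u hu.1 v hv.1 with g | g | g | g
      · simp [e] at g
      all_goals omega
    · by_cases ht : 1 ≤ t ∧ t ≤ l
      · refine le_trans (Finset.card_le_card fun v hv => ?_) (h2 (t - 1) (by omega))
        rw [Finset.mem_filter, mem_supp] at hv
        exact Finset.mem_filter.2 ⟨Finset.mem_range.2 hv.1.1, by omega⟩
      · rw [Finset.filter_eq_empty_iff.2 fun v hv => ?_]
        · simp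
        · rw [mem_supp] at hv
          have := h1 v hv.1
          omega
  · intro h
    refine ⟨fun v hv => ?_, fun t _ => h.cap' (t := t + 1) (fun v hv => ?_) fun v hv => ?_,
      fun u hu v hv => ?_⟩
    · by_cases g : 1 ≤ τ.getD v 0
      · exact (h.rng v (mem_supp.2 ⟨hv, g⟩)).2
      · omega
    · rw [Finset.mem_filter, Finset.mem_range] at hv
      exact mem_supp.2 ⟨hv.1, by omega⟩
    · exact (Finset.mem_filter.1 hv).2
    · by_contra g
      push Not at g
      have := h.ord u (mem_supp.2 ⟨hu, by omega⟩) v (mem_supp.2 ⟨hv, by omega⟩)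
        (by simpa [mkOrd] using g.1)
      omega

theorem fits_iff {p : Par} {τ : List ℕ} :
    fits n R p τ = true ↔ ∀ v < n, v ∈ supp n τ ↔ memb n R p v = true := by
  simp only [fits, all_eq_true, mem_range, mem_supp]
  refine forall₂_congr fun v hv => ?_
  generalize τ.getD v 0 = x
  cases memb n R p v <;> simp [hv]

theorem getD_map_range (f : ℕ → ℕ) {v : ℕ} (hv : v < n) : ((range n).map f).getD v 0 = f v := by
  simp [hv]

theorem tab_succ (k : ℕ) : tab n R (k + 1) = tab n R k ++ fresh n R (tab n R k) (k + 1) := by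
  simp [tab, range_succ, stepT]

theorem mem_fresh {T : List Ent} {l : ℕ} {e : Ent} (h : e ∈ fresh n R T l) :
    e.1 = l ∧ valid n R l e.2 = true ∧ e.2.length = n := by
  simp only [fresh, mem_flatMap, mem_map] at h
  obtain ⟨p, -, τ, h, rfl⟩ := h
  have h2 := mem_filter.1 (mem_of_mem_take h)
  refine ⟨rfl, (Bool.and_eq_true_iff.1 h2.2).1, ?_⟩
  have h3 := h2.1
  simp only [cands, mem_cons, mem_flatMap, mem_map] at h3
  rcases h3 with rfl | ⟨_, -, _, -, rfl⟩ <;> simp [merge]

theorem tab_sound {k : ℕ} {e : Ent} (h : e ∈ tab n R k) : e.1 ≤ k ∧ valid n R e.1 e.2 = true := by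
  induction k with
  | zero => simp [tab] at h
  | succ k ih =>
    rw [tab_succ, mem_append] at h
    rcases h with h | h
    · exact ⟨(ih h).1.trans (Nat.le_succ _), (ih h).2⟩
    · have := mem_fresh h
      exact ⟨this.1.le, this.1 ▸ this.2.1⟩

theorem tab_mono {k k' : ℕ} (h : k ≤ k') {e : Ent} (he : e ∈ tab n R k) : e ∈ tab n R k' := by
  induction h with
  | refl => exact he
  | step _ ih => rw [tab_succ]; exact mem_append_left _ ih

theorem fresh_ex {W : Finset ℕ} (hW : (mkOrd n R tr ir).Fam W) {T : List Ent} {l : ℕ}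
    (h : ∀ p, (∀ v < n, v ∈ W ↔ memb n R p v = true) →
      ∃ τ ∈ cands n R T p, supp n τ = W ∧ (mkOrd n R tr ir).Sch W l (τ.getD · 0)) :
    ∃ τ, (l, τ) ∈ fresh n R T l ∧ supp n τ = W := by
  obtain ⟨p, hp, e⟩ := fam_par hW
  obtain ⟨τ, h1, h2, h3⟩ := h p e
  have h4 : τ ∈ (cands n R T p).filter fun τ => valid n R l τ && fits n R p τ :=
    mem_filter.2 ⟨h1, Bool.and_eq_true_iff.2 ⟨(valid_iff (tr := tr) (ir := ir)).2 (h2 ▸ h3),
      fits_iff.2 (h2 ▸ e)⟩⟩
  cases h5 : (cands n R T p).filter fun τ => valid n R l τ && fits n R p τ with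
  | nil => simp [h5] at h4
  | cons τ' r =>
    have h6 : τ' ∈ (cands n R T p).filter fun τ => valid n R l τ && fits n R p τ := by simp [h5]
    have h7 := fits_iff.1 (Bool.and_eq_true_iff.1 (mem_filter.1 h6).2).2
    refine ⟨τ', mem_flatMap.2 ⟨p, hp, by simp [h5]⟩, Finset.ext fun v => ?_⟩
    by_cases hv : v < n
    · rw [h7 v hv, e v hv]
    · exact ⟨fun g => (hv (mem_supp.1 g).1).elim, fun g => (hv (hW.1 v g)).elim⟩

theorem tab_complete {W : Finset ℕ} {l : ℕ} (h : (mkOrd n R tr ir).Good W l) :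
    1 ≤ l ∧ ∃ τ, (l, τ) ∈ tab n R l ∧ supp n τ = W := by
  induction h with
  | base W hW hs =>
    obtain ⟨τ, h1, h2⟩ := fresh_ex (T := tab n R 0) (l := 1) hW fun p e => by
      have e1 : ∀ v ∈ W, ((range n).map fun v => cond (memb n R p v) 1 0).getD v 0 = 1 :=
        fun v hv => by rw [getD_map_range (n := n) _ (hW.1 v hv), (e v (hW.1 v hv)).1 hv]; rfl
      refine ⟨_, mem_cons_self, Finset.ext fun v => ?_, fun v hv => by simp only [e1 v hv]; omega,
        fun u hu v hv g => by simpa using hs.ord u hu v hv g,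
        fun t => (Finset.card_filter_le _ _).trans (hs.cap' subset_rfl fun _ _ => rfl)⟩
      rw [mem_supp]
      refine ⟨fun ⟨a, b⟩ => (e v a).2 ?_, fun a => ⟨hW.1 v a, (e1 v a).ge⟩⟩
      rw [getD_map_range _ a] at b
      revert b
      cases memb n R p v <;> simp
    exact ⟨le_rfl, τ, by rw [tab_succ]; exact mem_append_right _ h1, h2⟩
  | comb W1 W2 l1 l2 _ _ hd hb hW ih1 ih2 =>
    obtain ⟨p1, τ1, a1, rfl⟩ := ih1
    obtain ⟨p2, τ2, a2, rfl⟩ := ih2
    have s1 := (valid_iff (tr := tr) (ir := ir)).1 (tab_sound a1).2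
    have s2 := (valid_iff (tr := tr) (ir := ir)).1 (tab_sound a2).2
    obtain ⟨k, hk⟩ : ∃ k, l1 + l2 = k + 1 := ⟨l1 + l2 - 1, by omega⟩
    obtain ⟨τ, h1, h2⟩ := fresh_ex (T := tab n R k) (l := l1 + l2) hW fun p _ => by
      refine ⟨merge n l1 τ1 τ2, mem_cons_of_mem _ (mem_flatMap.2 ⟨_, tab_mono (by omega) a1,
        mem_map.2 ⟨_, tab_mono (by omega) a2, rfl⟩⟩), Finset.ext fun v => ?_,
        s1.comb s2 hb (fun v => Finset.mem_union.1) (fun v hv => ?_) fun v hv hv' => ?_⟩
      · simp only [mem_supp, Finset.mem_union]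
        by_cases hv : v < n
        · rw [merge, getD_map_range _ hv]
          generalize τ1.getD v 0 = x
          generalize τ2.getD v 0 = y
          cases x <;> cases y <;> simp [hv, Nat.beq]
          omega
        · simp [hv]
      · rw [mem_supp] at hv
        simp only [merge]
        rw [getD_map_range _ hv.1]
        have := hv.2
        revert this
        generalize τ1.getD v 0 = x
        cases x <;> simp [Nat.beq]
      · rw [mem_supp] at hv hv'
        simp only [merge]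
        rw [getD_map_range _ hv.1]
        have h1 := hv.2
        have h2 : τ1.getD v 0 = 0 := by
          by_contra g
          exact hv' ⟨hv.1, Nat.pos_of_ne_zero g⟩
        revert h1
        rw [h2]
        generalize τ2.getD v 0 = x
        cases x <;> simp [Nat.beq]
    exact ⟨by omega, τ, by rw [hk, tab_succ, ← hk]; exact mem_append_right _ h1, h2⟩

theorem full_iff {τ : List ℕ} : full n τ = true ↔ supp n τ = Finset.range n := by
  simp [full, supp, Finset.filter_eq_self]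

theorem tab_full {l : ℕ} {τ : ℕ → ℕ} (h1 : 1 ≤ l) (h2 : l ≤ n)
    (h : (mkOrd n R tr ir).Sch (Finset.range n) l τ) : ∃ τ', (l, τ') ∈ tab n R n ∧ full n τ' = true := by
  obtain ⟨-, τ', a, b⟩ := tab_complete (Ord.good_range (O := mkOrd n R tr ir) h1 h)
  exact ⟨τ', tab_mono h2 a, full_iff.2 b⟩

theorem best_spec {T : List Ent} (h : ∃ e ∈ T, full n e.2 = true) :
    best n T ∈ T ∧ full n (best n T).2 = true ∧ ∀ e ∈ T, full n e.2 = true → (best n T).1 ≤ e.1 := by
  classical
  obtain ⟨e0, a, b⟩ := h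
  obtain ⟨e, he, hm⟩ := (T.toFinset.filter (full n ·.2 = true)).exists_min_image Prod.fst
    ⟨e0, by simp [a, b]⟩
  simp only [Finset.mem_filter, mem_toFinset] at he hm
  have h4 : e ∈ T.filter fun e => full n e.2 && T.all fun e' => !full n e'.2 || Nat.ble e.1 e'.1 := by
    refine mem_filter.2 ⟨he.1, ?_⟩
    simp only [Bool.and_eq_true, all_eq_true, Bool.or_eq_true, Bool.not_eq_true', Nat.ble_eq]
    refine ⟨he.2, fun x hx => ?_⟩
    cases g : full n x.2
    · exact Or.inl rfl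
    · exact Or.inr (hm x ⟨hx, g⟩)
  unfold best
  cases h5 : T.filter fun e => full n e.2 && T.all fun e' => !full n e'.2 || Nat.ble e.1 e'.1 with
  | nil => simp [h5] at h4
  | cons x r =>
    have h6 : x ∈ T.filter fun e => full n e.2 && T.all fun e' =>
      !full n e'.2 || Nat.ble e.1 e'.1 := by simp [h5]
    have h7 := mem_filter.1 h6
    simp only [Bool.and_eq_true, all_eq_true, Bool.or_eq_true, Bool.not_eq_true', Nat.ble_eq] at h7
    exact ⟨h7.1, h7.2.1, fun y hy g => (h7.2.2 y hy).resolve_left (by simp [g])⟩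

end Vale.Agent.P324
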