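import Mathlib

namespace Vale.Agent.P324

/-- A directed graph on the jobs `0, …, n - 1`. -/
structure Prec where
  n : ℕ
  arc : Fin n → Fin n → Bool

/-- The graph has no directed cycle. -/
def Prec.Acyclic (G : Prec) : Prop :=
  ∀ v, ¬ Relation.TransGen (fun a b => G.arc a b = true) v v

/-- `τ` is a schedule of length `T` on three machines. -/
def Prec.IsSched (G : Prec) (T : ℕ) (τ : Fin G.n → ℕ) : Prop :=
  (∀ v, 1 ≤ τ v ∧ τ v ≤ T) ∧ (∀ t, (Finset.univ.filter fun v => τ v = t).card ≤ 3) ∧
    ∀ u v, G.arc u v = true → τ u < τ v

/-- Unary code of a natural number. -/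
def unary (k : ℕ) : List Bool := List.replicate k true ++ [false]

/-- Code of a graph: the number of jobs in unary, then the adjacency matrix row by row. -/
def Prec.enc (G : Prec) : List Bool :=
  unary G.n ++ (List.ofFn fun u => List.ofFn (G.arc u)).flatten

/-- Code of an instance of the decision problem: the graph, then `T` in binary. -/
def encInst (I : Prec × ℕ) : List Bool := I.1.enc ++ I.2.bits

/-- Code of a list of time slots. -/
def encList (l : List ℕ) : List Bool := l.flatMap unary

end Vale.Agent.P324
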