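import Vale.Agent.P324.Step

/-! Every schedule can be assembled from polynomially many described job sets. -/

namespace Vale.Agent.P324

open Finset

namespace Ord

variable (O : Ord)

structure Sch (W : Finset ℕ) (l : ℕ) (τ : ℕ → ℕ) : Prop where
  rng : ∀ v ∈ W, 1 ≤ τ v ∧ τ v ≤ l
  ord : ∀ u ∈ W, ∀ v ∈ W, O.lt u v → τ u < τ v
  cap : ∀ t, (W.filter (τ · = t)).card ≤ 3

def Fam (W : Finset ℕ) : Prop :=
  (∀ v ∈ W, v < O.n) ∧ ∃ σ L Pi B, O.Ok σ ∧ O.IsL L ∧ O.Small Pi ∧ O.Small B ∧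
    ∀ v < O.n, v ∈ W ↔ v ∈ Pi ∨ (v ∈ O.S σ ∧ v ∈ L ∧ v ∉ O.succ B)

inductive Good : Finset ℕ → ℕ → Prop
  | base (W) : O.Fam W → O.Sch W 1 (fun _ => 1) → Good W 1
  | comb (W1 W2 l1 l2) : Good W1 l1 → Good W2 l2 → Disjoint W1 W2 →
      (∀ u ∈ W2, ∀ v ∈ W1, ¬ O.lt u v) → O.Fam (W1 ∪ W2) → Good (W1 ∪ W2) (l1 + l2)

def Pin (Pi : Finset ℕ) (l : ℕ) (τ : ℕ → ℕ) : Prop := ∀ y ∈ Pi, τ y = l

structure State (W Pi : Finset ℕ) (l : ℕ) (σ : St) (L : Set ℕ) : Prop where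
  ok : O.Ok σ
  isL : O.IsL L
  sub : ∀ v ∈ W, v < O.n
  pi : Pi ⊆ W
  inS : ∀ v ∈ W, v ∉ Pi → v ∈ O.S σ ∧ v ∈ L
  out : ∀ y ∈ Pi, y ∉ O.S σ
  base : ∀ y ∈ Pi, y ∈ σ.P1
  inv : O.Inv σ Pi
  down : ∀ v ∈ W, ∀ u, O.lt u v → u ∈ L → u ∈ W
  abs : ∀ τ, O.Sch W l τ → Pin Pi l τ → ∀ v < O.n, v ∈ O.S σ → v ∈ L →
    v ∈ W ∨ ∃ y ∈ W, y ∉ Pi ∧ τ y = l ∧ O.lt y v
  ex : ∃ τ, O.Sch W l τ ∧ Pin Pi l τ

variable {O} {W W1 W2 Pi : Finset ℕ} {l l1 l2 : ℕ} {τ τ1 τ2 : ℕ → ℕ} {σ : St} {L : Set ℕ}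

theorem Sch.cap' (h : O.Sch W l τ) {A : Finset ℕ} (hA : A ⊆ W) {t : ℕ} (ht : ∀ v ∈ A, τ v = t) :
    A.card ≤ 3 :=
  (card_le_card fun v hv => mem_filter.2 ⟨hA hv, ht v hv⟩).trans (h.cap t)

theorem Sch.comb (h1 : O.Sch W1 l1 τ1) (h2 : O.Sch W2 l2 τ2)
    (hb : ∀ u ∈ W2, ∀ v ∈ W1, ¬ O.lt u v) (hW : ∀ v ∈ W, v ∈ W1 ∨ v ∈ W2)
    (e1 : ∀ v ∈ W1, τ v = τ1 v) (e2 : ∀ v ∈ W2, v ∉ W1 → τ v = l1 + τ2 v) :
    O.Sch W (l1 + l2) τ := by
  have hW' : ∀ v ∈ W, v ∈ W1 ∨ (v ∈ W2 ∧ v ∉ W1) := fun v hv => by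
    have := hW v hv; tauto
  refine ⟨fun v hv => ?_, fun u hu v hv h => ?_, fun t => ?_⟩
  · rcases hW' v hv with a | ⟨a, b⟩
    · have := h1.rng v a
      rw [e1 v a]; omega
    · have := h2.rng v a
      rw [e2 v a b]; omega
  · rcases hW' u hu with a | ⟨a, b⟩ <;> rcases hW' v hv with c | ⟨c, d⟩
    · rw [e1 u a, e1 v c]; exact h1.ord u a v c h
    · have := h1.rng u a
      have := h2.rng v c
      rw [e1 u a, e2 v c d]; omega
    · exact (hb u a v c h).elim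
    · have := h2.ord u a v c h
      rw [e2 u a b, e2 v c d]; omega
  · by_cases ht : t ≤ l1
    · refine h1.cap' (t := t) (fun v hv => ?_) fun v hv => ?_ <;> rw [mem_filter] at hv <;>
        rcases hW' v hv.1 with a | ⟨a, b⟩
      · exact a
      · have := h2.rng v a
        have := e2 v a b
        omega
      · rw [← e1 v a, hv.2]
      · have := h2.rng v a
        have := e2 v a b
        omega
    · refine h2.cap' (t := t - l1) (fun v hv => ?_) fun v hv => ?_ <;> rw [mem_filter] at hv <;>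
        rcases hW' v hv.1 with a | ⟨a, b⟩
      · have := h1.rng v a
        have := e1 v a
        omega
      · exact a
      · have := h1.rng v a
        have := e1 v a
        omega
      · have := e2 v a b
        omega

theorem Sch.swap (h : O.Sch W l τ) (hp : Pin Pi l τ) {x : ℕ} (hx : x ∈ W)
    (hxP : x ∉ Pi) (hs : ∀ v ∈ W, ¬ O.lt x v)
    (hm : ∀ τ', O.Sch W l τ' → Pin Pi l τ' → τ' x ≤ τ x) :
    ∀ j ∈ W, j ∉ Pi → τ x < τ j → ∃ y ∈ W, y ≠ x ∧ τ y = τ x ∧ O.lt y j := by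
  classical
  suffices H : ∀ k, ∀ j ∈ W, τ j = k → j ∉ Pi → τ x < τ j →
      ∃ y ∈ W, y ≠ x ∧ τ y = τ x ∧ O.lt y j from fun j hj => H _ j hj rfl
  intro k
  induction k using Nat.strong_induction_on with
  | _ k ih =>
  intro j hj hk hjP hlt
  by_contra hno
  have hpre : ∀ u ∈ W, O.lt u j → τ u < τ x := fun u hu huj => by
    have h1 := h.ord u hu j hj huj
    have h2 := h.rng j hj
    by_contra h3
    rcases (not_lt.1 h3).eq_or_lt with h4 | h4
    · exact hno ⟨u, hu, by rintro rfl; exact hs j hj huj, h4.symm, huj⟩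
    · obtain ⟨y, hy, a, b, c⟩ := ih (τ u) (by omega) u hu rfl
        (fun e => by have := hp u e; omega) h4
      exact hno ⟨y, hy, a, b, O.tr c huj⟩
  have hne : j ≠ x := by rintro rfl; omega
  have hsw : ∀ v ∈ W, Equiv.swap x j v ∈ W := fun v hv => by
    rw [Equiv.swap_apply_def]; split_ifs <;> assumption
  have := hm (fun v => τ (Equiv.swap x j v)) ⟨fun v hv => h.rng _ (hsw v hv),
    fun u hu v hv huv => ?_, fun t => ?_⟩ fun y hy => ?_
  · simp only [Equiv.swap_apply_left] at this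
    omega
  · have h1 := h.ord u hu v hv huv
    have hux : u ≠ x := by rintro rfl; exact hs v hv huv
    simp only [Equiv.swap_apply_def, if_neg hux]
    by_cases a : u = j
    · subst a
      rw [if_pos rfl, if_neg (by rintro rfl; omega), if_neg (by rintro rfl; omega)]
      omega
    · rw [if_neg a]
      split_ifs with b c
      · subst b; omega
      · subst c; exact hpre u hu huv
      · exact h1
  · refine le_trans (card_le_card_of_injOn (Equiv.swap x j) (fun v hv => ?_)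
      (Equiv.injective _).injOn) (h.cap t)
    simp only [coe_filter, Set.mem_setOf_eq] at hv ⊢
    exact ⟨hsw v hv.1, hv.2⟩
  · have e : Equiv.swap x j y = y :=
      Equiv.swap_apply_of_ne_of_ne (by rintro rfl; exact hxP hy) (by rintro rfl; exact hjP hy)
    simp only [e]
    exact hp y hy

theorem State.sink (h : O.State W Pi l σ L) : ∀ y ∈ Pi, ∀ v ∈ W, ¬ O.lt y v := fun y hy v hv e => by
  obtain ⟨τ, h1, h2⟩ := h.ex
  have := h1.ord y (h.pi hy) v hv e
  have := h1.rng v hv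
  have := h2 y hy
  omega

theorem State.small (h : O.State W Pi l σ L) : O.Small Pi := by
  obtain ⟨τ, h1, h2⟩ := h.ex
  exact ⟨h1.cap' h.pi h2, fun a ha => h.sub a (h.pi ha)⟩

theorem State.fam (h : O.State W Pi l σ L) : O.Fam W := by
  classical
  obtain ⟨τ, h1, h2⟩ := h.ex
  refine ⟨h.sub, σ, L, Pi, W.filter fun y => y ∉ Pi ∧ τ y = l, h.ok, h.isL, h.small,
    ⟨h1.cap' (filter_subset _ _) fun v hv => (mem_filter.1 hv).2.2,
      fun a ha => h.sub a (mem_filter.1 ha).1⟩, fun v hv => ⟨fun a => ?_, ?_⟩⟩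
  · by_cases b : v ∈ Pi
    · exact Or.inl b
    · refine Or.inr ⟨(h.inS v a b).1, (h.inS v a b).2, fun ⟨y, hy, e⟩ => ?_⟩
      rw [mem_filter] at hy
      have := h1.ord y hy.1 v a e
      have := h1.rng v a
      omega
  · rintro (a | ⟨a, b, c⟩)
    · exact h.pi a
    · rcases h.abs τ h1 h2 v hv a b with d | ⟨y, hy, d⟩
      · exact d
      · exact (c ⟨y, mem_filter.2 ⟨hy, d.1, d.2.1⟩, d.2.2⟩).elim

theorem State.goodPi (h : O.State W Pi l σ L) : O.Good Pi 1 := by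
  refine Good.base _ ⟨h.small.2, ⟨∅, ∅, ∅, 0, 0, 0⟩, Set.univ, Pi, ∅, ⟨isP_empty, isP_empty,
    isP_empty, subset_rfl, subset_rfl, le_rfl, le_rfl, Nat.zero_le _⟩, Or.inl rfl, h.small,
    ⟨by simp, by simp⟩, fun v _ => by simp [S]⟩ ⟨by simp, fun u hu v hv e => ?_, fun t => ?_⟩
  · exact (h.sink u hu v (h.pi hv) e).elim
  · exact (card_filter_le _ _).trans h.small.1

theorem State.remove (h : O.State W Pi (l + 1) σ L)
    (hc : Pi.card = 3 ∨ ∀ w ∈ W, w ∉ Pi → w ∈ O.pred Pi) : O.State (W \ Pi) ∅ l σ L := by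
  obtain ⟨τ, h1, h2⟩ := h.ex
  have key : ∀ v ∈ W, v ∉ Pi → τ v ≤ l := fun v hv hP => by
    have := h1.rng v hv
    by_contra g
    rcases hc with hc | hc
    · have := h1.cap' (A := insert v Pi) (t := l + 1) (insert_subset hv h.pi) fun z hz => by
        rcases mem_insert.1 hz with rfl | hz
        · omega
        · exact h2 z hz
      rw [card_insert_of_notMem hP] at this
      omega
    · obtain ⟨y, hy, e⟩ := hc v hv hP
      have := h1.ord v hv y (h.pi hy) e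
      have := h2 y hy
      omega
  refine ⟨h.ok, h.isL, fun v hv => h.sub v (mem_sdiff.1 hv).1, empty_subset _,
    fun v hv _ => h.inS v (mem_sdiff.1 hv).1 (mem_sdiff.1 hv).2, by simp, by simp,
    Or.inl (by simp [InvA]), fun v hv u e hL => ?_, fun _ _ _ v hv a b => Or.inl ?_,
    τ, ⟨fun v hv => ?_, fun u hu v hv => h1.ord u (mem_sdiff.1 hu).1 v (mem_sdiff.1 hv).1,
      fun t => le_trans (card_le_card (filter_subset_filter _ sdiff_subset)) (h1.cap t)⟩,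
    by simp [Pin]⟩
  · rw [mem_sdiff] at hv ⊢
    exact ⟨h.down v hv.1 u e hL, fun g => h.sink u g v hv.1 e⟩
  · rcases h.abs τ h1 h2 v hv a b with d | ⟨y, hy, d1, d2, -⟩
    · exact mem_sdiff.2 ⟨d, fun g => h.out v g a⟩
    · have := key y hy d1
      omega
  · rw [mem_sdiff] at hv
    exact ⟨(h1.rng v hv.1).1, key v hv.1 hv.2⟩

theorem State.post (h : O.State W Pi l σ L) (hc : Pi.card ≤ 2)
    (he : ∃ w ∈ W, w ∉ Pi ∧ w ∉ O.pred Pi) : O.Post W Pi (O.S σ) L := by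
  have hd : ∀ u ∈ O.pred Pi, u ∈ L → u ∈ W := fun u ⟨y, hy, e⟩ hL => h.down y (h.pi hy) u e hL
  exact Pre.step ⟨h.ok, h.sub, h.pi, hc, fun v hv a => (h.inS v hv a).1, h.out, h.base, h.sink,
    fun u hu hL => (h.inS u (hd u hu hL) fun g => by
      obtain ⟨y, hy, e⟩ := hu
      exact h.sink u g y (h.pi hy) e).1, he⟩ h.inv hd

theorem State.good : ∀ l, 1 ≤ l → ∀ (W Pi : Finset ℕ) (σ : St) (L : Set ℕ),
    O.State W Pi l σ L → O.Good W l := by
  classical
  intro l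
  induction l using Nat.strong_induction_on with
  | _ l ih =>
  intro hl
  suffices H : ∀ k, ∀ (W Pi : Finset ℕ) (σ : St) (L : Set ℕ), 3 - Pi.card = k →
      O.State W Pi l σ L → O.Good W l from fun W Pi σ L => H _ W Pi σ L rfl
  intro k
  induction k using Nat.strong_induction_on with
  | _ k ihk =>
  intro W Pi σ L hk h
  rcases hl.eq_or_lt with rfl | hl
  · obtain ⟨τ, h1, -⟩ := h.ex
    have e : ∀ v ∈ W, τ v = 1 := fun v hv => by have := h1.rng v hv; omega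
    refine Good.base _ h.fam ⟨by simp, fun u hu v hv g => ?_,
      fun t => (card_filter_le _ _).trans (h1.cap' subset_rfl e)⟩
    have := h1.ord u hu v hv g
    rw [e u hu, e v hv] at this
    exact this
  by_cases hc : Pi.card = 3 ∨ ∀ w ∈ W, w ∉ Pi → w ∈ O.pred Pi
  · obtain ⟨m, rfl⟩ : ∃ m, l = m + 1 := ⟨l - 1, by omega⟩
    have := Good.comb _ _ _ _ (ih m (by omega) (by omega) _ _ _ _ (h.remove hc)) h.goodPi
      sdiff_disjoint (fun u hu v hv => h.sink u hu v (mem_sdiff.1 hv).1)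
      (by rw [sdiff_union_of_subset h.pi]; exact h.fam)
    rwa [sdiff_union_of_subset h.pi] at this
  push Not at hc
  have hc3 := h.small.1
  obtain ⟨x, hx, hxP, hs, σ', ok', a1, a2, a3, a4, a5, a6, a7, a8⟩ := h.post (by omega) hc.2
  obtain ⟨τ, ⟨h1, h2⟩, hm⟩ : ∃ τ, (O.Sch W l τ ∧ Pin Pi l τ) ∧
      ∀ τ', O.Sch W l τ' → Pin Pi l τ' → τ' x ≤ τ x := by
    obtain ⟨τ0, h0⟩ := h.ex
    have hb : BddAbove {t | ∃ τ, (O.Sch W l τ ∧ Pin Pi l τ) ∧ τ x = t} :=
      ⟨l, fun t ⟨τ, a, b⟩ => b ▸ (a.1.rng x hx).2⟩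
    obtain ⟨τ, a, b⟩ := Nat.sSup_mem (s := {t | ∃ τ, (O.Sch W l τ ∧ Pin Pi l τ) ∧ τ x = t})
      ⟨_, τ0, h0, rfl⟩ hb
    exact ⟨τ, a, fun τ' c d => b ▸ le_csSup hb ⟨τ', ⟨c, d⟩, rfl⟩⟩
  have hr := h1.rng x hx
  rcases hr.2.eq_or_lt with hxl | hxl
  · refine ihk _ (by rw [card_insert_of_notMem hxP]; omega) W (insert x Pi) σ' L rfl
      ⟨ok', h.isL, h.sub, insert_subset hx h.pi, fun v hv b => ?_, fun y hy => ?_, fun y hy => ?_,
        a7, h.down, fun τ' b c v hv d e => ?_, τ, h1, fun y hy => ?_⟩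
    · rw [mem_insert, not_or] at b
      exact ⟨a1 v hv b.2 b.1, (h.inS v hv b.2).2⟩
    · rcases mem_insert.1 hy with rfl | hy
      exacts [a3, a4 y hy]
    · rcases mem_insert.1 hy with rfl | hy
      exacts [a5, a6 y hy]
    · refine (h.abs τ' b (fun y hy => c y (mem_insert_of_mem hy)) v hv (a2 v d e) e).imp id ?_
      rintro ⟨y, hy, f, g, i⟩
      refine ⟨y, hy, fun j => ?_, g, i⟩
      rcases mem_insert.1 j with rfl | j
      exacts [a3 (ok'.down i d), f j]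
    · rcases mem_insert.1 hy with rfl | hy
      exacts [hxl, h2 y hy]
  set s := τ x with hs0
  set W1 := W.filter (τ · ≤ s) with hW1
  set W2 := W.filter (s < τ ·) with hW2
  have m1 : ∀ v, v ∈ W1 ↔ v ∈ W ∧ τ v ≤ s := fun v => mem_filter
  have m2 : ∀ v, v ∈ W2 ↔ v ∈ W ∧ s < τ v := fun v => mem_filter
  have hP2 : ∀ y ∈ Pi, y ∈ W2 := fun y hy => (m2 y).2 ⟨h.pi hy, by rw [h2 y hy]; exact hxl⟩
  have hP1 : ∀ v ∈ W1, v ∉ Pi := fun v hv g => by
    have := ((m1 v).1 hv).2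
    have := ((m2 v).1 (hP2 v g)).2
    omega
  have hb : ∀ u ∈ W2, ∀ v ∈ W1, ¬ O.lt u v := fun u hu v hv e => by
    rw [m2] at hu
    rw [m1] at hv
    have := h1.ord u hu.1 v hv.1 e
    omega
  have hW : ∀ v ∈ W, v ∈ W1 ∨ v ∈ W2 := fun v hv => by
    rw [m1, m2]; by_cases g : τ v ≤ s <;> simp [hv, g]; omega
  have hls : s + (l - s) = l := by omega
  have s1 : O.Sch W1 s τ := ⟨fun v hv => ⟨(h1.rng v ((m1 v).1 hv).1).1, ((m1 v).1 hv).2⟩,
    fun u hu v hv => h1.ord u ((m1 u).1 hu).1 v ((m1 v).1 hv).1,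
    fun t => le_trans (card_le_card (filter_subset_filter _ (filter_subset _ _))) (h1.cap t)⟩
  have s2 : O.Sch W2 (l - s) fun v => τ v - s := by
    refine ⟨fun v hv => ?_, fun u hu v hv e => ?_, fun t => h1.cap' (t := t + s)
      ((filter_subset _ _).trans (filter_subset _ _)) fun v hv => ?_⟩
    · rw [m2] at hv
      have := h1.rng v hv.1
      omega
    · rw [m2] at hu hv
      have := h1.ord u hu.1 v hv.1 e
      omega
    · rw [mem_filter, m2] at hv
      omega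
  have g1 : O.Good W1 s := by
    refine ih s hxl hr.1 W1 {x} σ' L ⟨ok', h.isL, fun v hv => h.sub v ((m1 v).1 hv).1,
      singleton_subset_iff.2 ((m1 x).2 ⟨hx, le_rfl⟩), fun v hv b => ?_, by simpa using a3,
      by simpa using a5, a8, fun v hv u e hL => ?_, fun τ' b c v hv d e => ?_, τ, s1,
      by simp [Pin, hs0]⟩
    · exact ⟨a1 v ((m1 v).1 hv).1 (hP1 v hv) (by simpa using b),
        (h.inS v ((m1 v).1 hv).1 (hP1 v hv)).2⟩
    · rw [m1] at hv ⊢
      have g := h.down v hv.1 u e hL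
      have := h1.ord u g v hv.1 e
      exact ⟨g, by omega⟩
    · let τ'' : ℕ → ℕ := fun v => if v ∈ W1 then τ' v else τ v
      have e1 : ∀ v ∈ W1, τ'' v = τ' v := fun v hv => if_pos hv
      have e2 : ∀ v ∈ W2, τ'' v = τ v := fun v hv => if_neg fun g => by
        have := ((m1 v).1 g).2
        have := ((m2 v).1 hv).2
        omega
      have b1 : O.Sch W l τ'' := hls ▸ b.comb s2 hb hW e1 fun v hv _ => by
        have := ((m2 v).1 hv).2
        rw [e2 v hv]; omega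
      have b2 : Pin Pi l τ'' := fun y hy => by rw [e2 y (hP2 y hy), h2 y hy]
      have b3 : τ'' x = s := by
        rw [e1 x ((m1 x).2 ⟨hx, le_rfl⟩)]; exact c x (mem_singleton_self x)
      have b4 : ∀ j ∈ W2, j ∉ Pi → ∃ y ∈ W1, y ∉ ({x} : Finset ℕ) ∧ τ' y = s ∧ O.lt y j :=
        fun j hj hjP => by
          obtain ⟨y, hy, c1, c2, c3⟩ := b1.swap b2 hx hxP hs (fun τ3 p q => b3 ▸ hm τ3 p q) j
            ((m2 j).1 hj).1 hjP (by rw [b3, e2 j hj]; exact ((m2 j).1 hj).2)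
          rw [b3] at c2
          have hy1 : y ∈ W1 := (hW y hy).resolve_right fun g => by
            have := ((m2 y).1 g).2
            rw [e2 y g] at c2
            omega
          exact ⟨y, hy1, by simpa using c1, by rw [← e1 y hy1, c2], c3⟩
      rcases h.abs τ'' b1 b2 v hv (a2 v d e) e with f | ⟨y, hy, f1, f2, f3⟩
      · exact (hW v f).imp id fun g => b4 v g fun i => a4 v i d
      · have hy2 : y ∈ W2 := (hW y hy).resolve_left fun g => by
          have := (b.rng y g).2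
          rw [e1 y g] at f2
          omega
        obtain ⟨z, hz, c1, c2, c3⟩ := b4 y hy2 f1
        exact Or.inr ⟨z, hz, c1, c2, O.tr c3 f3⟩
  have g2 : O.Good W2 (l - s) := by
    set A := W.filter fun y => y ≠ x ∧ τ y = s with hA
    have hAL : ∀ u ∈ O.succ A, u ∈ L := fun u ⟨y, hy, e⟩ => by
      rw [mem_filter] at hy
      exact h.isL.up e (h.inS y hy.1 (hP1 y ((m1 y).2 ⟨hy.1, hy.2.2.le⟩))).2
    have hA2 : ∀ u ∈ O.succ A, u ∈ W → u ∈ W2 := fun u ⟨y, hy, e⟩ hu => by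
      rw [mem_filter] at hy
      have := h1.ord y hy.1 u hu e
      exact (m2 u).2 ⟨hu, by omega⟩
    refine ih (l - s) (by omega) (by omega) W2 Pi σ (O.succ A) ⟨h.ok, Or.inr ⟨A,
      ⟨h1.cap' (filter_subset _ _) fun v hv => (mem_filter.1 hv).2.2,
        fun a ha => h.sub a (mem_filter.1 ha).1⟩, rfl⟩, fun v hv => h.sub v ((m2 v).1 hv).1,
      hP2, fun v hv b => ?_, h.out, h.base, h.inv, fun v hv u e hL => ?_,
      fun τ' b c v hv d e => ?_, _, s2, fun y hy => by simp only [h2 y hy]⟩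
    · rw [m2] at hv
      obtain ⟨y, hy, c1, c2, c3⟩ := h1.swap h2 hx hxP hs hm v hv.1 b hv.2
      exact ⟨(h.inS v hv.1 b).1, y, mem_filter.2 ⟨hy, c1, c2⟩, c3⟩
    · exact hA2 u hL (h.down v ((m2 v).1 hv).1 u e (hAL u hL))
    · let τ'' : ℕ → ℕ := fun v => if v ∈ W1 then τ v else s + τ' v
      have e1 : ∀ v ∈ W1, τ'' v = τ v := fun v hv => if_pos hv
      have e2 : ∀ v ∈ W2, τ'' v = s + τ' v := fun v hv => if_neg fun g => by
        have := ((m1 v).1 g).2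
        have := ((m2 v).1 hv).2
        omega
      have b1 : O.Sch W l τ'' := hls ▸ s1.comb b hb hW e1 fun v hv _ => e2 v hv
      have b2 : Pin Pi l τ'' := fun y hy => by rw [e2 y (hP2 y hy), c y hy, hls]
      rcases h.abs τ'' b1 b2 v hv d (hAL v e) with f | ⟨y, hy, f1, f2, f3⟩
      · exact Or.inl (hA2 v e f)
      · have hy2 : y ∈ W2 := (hW y hy).resolve_left fun g => by
          have := ((m1 y).1 g).2
          rw [e1 y g] at f2
          omega
        rw [e2 y hy2] at f2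
        exact Or.inr ⟨y, hy2, f1, by omega, f3⟩
  have hU : W1 ∪ W2 = W := by
    ext v
    rw [mem_union]
    exact ⟨fun g => g.elim (fun g => ((m1 v).1 g).1) fun g => ((m2 v).1 g).1, hW v⟩
  have := Good.comb _ _ _ _ g1 g2 (disjoint_left.2 fun v a b => by
    have := ((m1 v).1 a).2
    have := ((m2 v).1 b).2
    omega) hb (hU ▸ h.fam)
  rwa [hU, hls] at this

theorem good_range (hl : 1 ≤ l) (h : O.Sch (range O.n) l τ) : O.Good (range O.n) l :=
  State.good l hl _ ∅ ⟨Set.univ, Set.univ, Set.univ, O.N, O.N, O.N⟩ Set.univ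
    ⟨⟨Or.inl rfl, Or.inl rfl, Or.inl rfl, subset_rfl, subset_rfl, le_rfl, le_rfl, le_rfl⟩,
      Or.inl rfl, fun _ => mem_range.1, empty_subset _,
      fun v hv _ => ⟨Or.inl ⟨trivial, O.top (mem_range.1 hv)⟩, trivial⟩, by simp, by simp,
      Or.inl (by simp [InvA]), fun _ _ _ e _ => mem_range.2 (O.bd e).1,
      fun _ _ _ _ hv _ _ => Or.inl (mem_range.2 hv), τ, h, by simp [Pin]⟩

end Ord

end Vale.Agent.P324
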