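import Vale.Agent.P333.PL
import Vale.Agent.P324.Algo

/-! The dynamic programme runs in polynomial time. -/

namespace Vale.Agent.P324

open Vale.Agent.PT Vale.Agent.P333 Vale.Agent.P333.Ret List

def arcb (n : ℕ) (s : List Bool) (u v : ℕ) : Bool := s.getD (n + 1 + (u * n + v)) false

def cstep (n : ℕ) (s : List Bool) (R : List ℕ) : List ℕ :=
  (range (n * n)).map fun i => cond (arcb n s (i / n) (i % n) ||
    (range n).any fun w => ltb n R (i / n) w && arcb n s w (i % n)) 1 0

def clo (n : ℕ) (s : List Bool) (k : ℕ) : List ℕ := (cstep n s)^[k] []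

def valB (c : ℕ) (l : List Bool) : ℕ := l.foldr (fun b a => min (cond b 1 0 + 2 * a) c) 0

def table (s : List Bool) : List Ent := tab (lead s) (clo (lead s) s (lead s)) (lead s)

def decS (s : List Bool) : Bool :=
  decT (lead s) (table s) (valB (lead s) (s.drop (lead s + 1 + lead s * lead s)))

def optS (s : List Bool) : List ℕ := (best (lead s) (table s)).2

variable {α : Type} [Ctx Bool α] {n u v l t M : α → ℕ} {R τ τ' : α → List ℕ} {s : α → List Bool}
  {a : α → T3} {q : α → Q4} {p : α → Par} {T : α → List Ent}

@[fun_prop] theorem pt_prodL {β γ : Type} [Ctx Bool β] [Ret β] [Ctx Bool γ] [Ret γ]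
    {l : α → List β} {r : α → List γ} (hl : PT Bool l) (hr : PT Bool r) :
    PT Bool fun x => prodL (l x) (r x) := by unfold prodL; fun_prop

@[fun_prop] theorem pt_tri (hM : PT Bool M) : PT Bool fun x => tri (M x) := by
  unfold tri; fun_prop

@[fun_prop] theorem pt_quad (hM : PT Bool M) : PT Bool fun x => quad (M x) := by
  unfold quad; fun_prop

@[fun_prop] theorem pt_pars (hM : PT Bool M) : PT Bool fun x => pars (M x) := by
  unfold pars; fun_prop

@[fun_prop] theorem pt_ltb (hn : PT Bool n) (hR : PT Bool R) (hu : PT Bool u) (hv : PT Bool v) :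
    PT Bool fun x => ltb (n x) (R x) (u x) (v x) := by unfold ltb; fun_prop

@[fun_prop] theorem pt_rkb (hn : PT Bool n) (hR : PT Bool R) (hv : PT Bool v) :
    PT Bool fun x => rkb (n x) (R x) (v x) := by unfold rkb; fun_prop

@[fun_prop] theorem pt_inT (ha : PT Bool a) (hv : PT Bool v) :
    PT Bool fun x => inT (a x) (v x) := by unfold inT; fun_prop

@[fun_prop] theorem pt_predT (hn : PT Bool n) (hR : PT Bool R) (ha : PT Bool a) (hv : PT Bool v) :
    PT Bool fun x => predT (n x) (R x) (a x) (v x) := by unfold predT; fun_prop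

@[fun_prop] theorem pt_succT (hn : PT Bool n) (hR : PT Bool R) (ha : PT Bool a) (hv : PT Bool v) :
    PT Bool fun x => succT (n x) (R x) (a x) (v x) := by unfold succT; fun_prop

@[fun_prop] theorem pt_lay (hn : PT Bool n) (hR : PT Bool R) (hq : PT Bool q) (ht : PT Bool t)
    (hv : PT Bool v) : PT Bool fun x => lay (n x) (R x) (q x) (t x) (v x) := by
  unfold lay; fun_prop

@[fun_prop] theorem pt_memb (hn : PT Bool n) (hR : PT Bool R) (hp : PT Bool p) (hv : PT Bool v) :
    PT Bool fun x => memb (n x) (R x) (p x) (v x) := by unfold memb; fun_prop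

@[fun_prop] theorem pt_valid (hn : PT Bool n) (hR : PT Bool R) (hl : PT Bool l) (hτ : PT Bool τ) :
    PT Bool fun x => valid (n x) (R x) (l x) (τ x) := by unfold valid; fun_prop

@[fun_prop] theorem pt_fits (hn : PT Bool n) (hR : PT Bool R) (hp : PT Bool p) (hτ : PT Bool τ) :
    PT Bool fun x => fits (n x) (R x) (p x) (τ x) := by unfold fits; fun_prop

@[fun_prop] theorem pt_merge (hn : PT Bool n) (hl : PT Bool l) (hτ : PT Bool τ)
    (hτ' : PT Bool τ') : PT Bool fun x => merge (n x) (l x) (τ x) (τ' x) := by
  unfold merge; fun_prop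

@[fun_prop] theorem pt_cands (hn : PT Bool n) (hR : PT Bool R) (hT : PT Bool T) (hp : PT Bool p) :
    PT Bool fun x => cands (n x) (R x) (T x) (p x) := by unfold cands; fun_prop

@[fun_prop] theorem pt_fresh (hn : PT Bool n) (hR : PT Bool R) (hT : PT Bool T) (hl : PT Bool l) :
    PT Bool fun x => fresh (n x) (R x) (T x) (l x) := by unfold fresh; fun_prop

@[fun_prop] theorem pt_stepT (hn : PT Bool n) (hR : PT Bool R) (hT : PT Bool T) (hl : PT Bool l) :
    PT Bool fun x => stepT (n x) (R x) (T x) (l x) := by unfold stepT; fun_prop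

theorem encL_le {β : Type} [Ctx Bool β] [Ret β] {L : List β} {B : ℕ}
    (h : ∀ b ∈ L, (pack b).length ≤ B) : (encL L).length ≤ L.length * (2 * B + 1) := by
  induction L with
  | nil => simp [encL]
  | cons b L ih =>
    have h1 := h b mem_cons_self
    have h2 := ih fun c hc => h c (mem_cons_of_mem _ hc)
    simp only [encL, flatMap_cons, length_append, length_esc, length_cons] at h2 ⊢
    rw [Nat.add_mul, Nat.one_mul]
    omega

theorem length_fresh (n : ℕ) (R : List ℕ) (T : List Ent) (l : ℕ) :
    (fresh n R T l).length ≤ (pars (n * n + n + 2)).length := by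
  unfold fresh
  induction pars (n * n + n + 2) with
  | nil => simp
  | cons p r ih =>
    simp only [flatMap_cons, length_append, length_map, length_take, length_cons] at ih ⊢
    omega

@[fun_prop] theorem pt_tab (hn : PT Bool n) (hR : PT Bool R) :
    PT Bool fun x => tab (n x) (R x) (n x) :=
  pt_foldl (l := fun x => range (n x)) (by fun_prop) (PT.const [])
    (fun x => stepT (n x) (R x)) (by fun_prop)
    (fun x => (pars (n x * n x + n x + 2)).length * (2 * (2 * n x + 1 + n x * (2 * n x + 1)) + 1))
    (by fun_prop) fun x b c hc => by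
      change (encL _).length ≤ (encL _).length + _
      have e : ∀ l r : List Ent, (encL (l ++ r)).length = (encL l).length + (encL r).length :=
        fun l r => by simp [encL]
      rw [stepT, e]
      refine Nat.add_le_add_left ((encL_le fun d hd => ?_).trans
        (Nat.mul_le_mul_right _ (length_fresh _ _ _ _))) _
      obtain ⟨h1, h2, h3⟩ := mem_fresh hd
      rw [mem_range] at hc
      have h4 : (encL d.2).length ≤ d.2.length * (2 * n x + 1) := encL_le fun y hy => by
        obtain ⟨i, hi, rfl⟩ := getElem_of_mem hy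
        simp only [valid, Bool.and_eq_true, all_eq_true, mem_range, Nat.ble_eq] at h2
        have := h2.1 i (h3 ▸ hi)
        rw [getD_eq_getElem _ _ hi] at this
        simp only [pack, length_replicate]
        omega
      rw [h3] at h4
      change (esc (pack d.1) ++ encL d.2).length ≤ _
      simp only [length_append, length_esc, pack, length_replicate]
      omega

@[fun_prop] theorem pt_full (hn : PT Bool n) (hτ : PT Bool τ) :
    PT Bool fun x => full (n x) (τ x) := by unfold full; fun_prop

@[fun_prop] theorem pt_decT (hn : PT Bool n) (hT : PT Bool T) (hl : PT Bool l) :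
    PT Bool fun x => decT (n x) (T x) (l x) := by unfold decT; fun_prop

@[fun_prop] theorem pt_best (hn : PT Bool n) (hT : PT Bool T) :
    PT Bool fun x => best (n x) (T x) := by unfold best; fun_prop

@[fun_prop] theorem pt_arcb (hn : PT Bool n) (hs : PT Bool s) (hu : PT Bool u) (hv : PT Bool v) :
    PT Bool fun x => arcb (n x) (s x) (u x) (v x) := pt_bit hs (by fun_prop)

@[fun_prop] theorem pt_cstep (hn : PT Bool n) (hs : PT Bool s) (hR : PT Bool R) :
    PT Bool fun x => cstep (n x) (s x) (R x) := by unfold cstep; fun_prop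

@[fun_prop] theorem pt_clo (hn : PT Bool n) (hs : PT Bool s) :
    PT Bool fun x => clo (n x) (s x) (n x) :=
  pt_rec hn (fun x k => clo (n x) (s x) k) (PT.const []) (fun y => cstep (n y.1) (s y.1) y.2.2)
    (by fun_prop) (fun x k => Function.iterate_succ_apply' _ _ _)
    ⟨fun x => n x * n x * (2 * 1 + 1), PT.pb (by fun_prop), fun x k _ => by
      cases k with
      | zero => exact Nat.zero_le _
      | succ k =>
        rw [clo, Function.iterate_succ_apply']
        refine (encL_le (B := 1) fun y hy => ?_).trans (by simp [cstep])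
        obtain ⟨i, -, rfl⟩ := mem_map.1 hy
        simp only [pack, length_replicate]
        exact Bool.rec (motive := fun b => cond b 1 0 ≤ 1) (by simp) (by simp) _⟩

theorem valB_le (c : ℕ) (l : List Bool) : valB c l ≤ c := by
  cases l <;> simp [valB]

theorem valB_bits (c m : ℕ) : valB c m.bits = min m c := by
  induction m using Nat.binaryRec' with
  | zero => simp [valB]
  | bit b m h ih =>
    rw [Nat.bits_append_bit _ _ h]
    simp only [valB, foldr_cons] at ih ⊢
    rw [ih, Nat.bit_val]
    cases b <;> simp <;> omega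

@[fun_prop] theorem pt_valB (hn : PT Bool n) (hs : PT Bool s) :
    PT Bool fun x => valB (n x) (s x) := by
  apply PT.ofUnary
  exact PT.listRec hs (fun x P => List.replicate (valB (n x) P) default) (PT.const _)
    (fun c x => List.replicate (min (cond c 1 0 + 2 * x.2.2.length) (n x.1)) default)
    (fun c => PT.toUnary (pt_min ((PT.const _).add ((PT.const 2).mul (PT.length
      (PT.snd (PT.snd PT.id'))))) (hn.comp (PT.fst PT.id'))))
    (fun x c P => by rw [length_replicate]; rfl)
    ⟨n, hn.pb, fun x P _ => by rw [length_replicate]; exact valB_le _ _⟩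

theorem pt_table : PT Bool table :=
  pt_tab (pt_lead PT.id') (pt_clo (pt_lead PT.id') PT.id')

theorem pt_decS : PT Bool decS :=
  have h := pt_lead (α := List Bool) PT.id'
  pt_decT h pt_table (pt_valB h (pt_dropB PT.id' ((h.add (PT.const 1)).add (h.mul h))))

theorem pt_optS : PT Bool optS := (pt_best (pt_lead PT.id') pt_table).snd

end Vale.Agent.P324
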