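import Vale.Agent.P324.Defs
import Vale.Agent.P324.Time

/-! Correctness of the algorithm on coded instances. -/

namespace Vale.Agent.P324

open Vale.Agent.PT Vale.Agent.P333 List

theorem Ord.exists_sch (O : Ord) : ∃ τ, O.Sch (Finset.range O.n) O.n τ := by
  classical
  let c : ℕ → ℕ := fun v => ((Finset.range O.n).filter fun u => O.rk u < O.rk v).card
  have hc : ∀ u < O.n, ∀ v, O.rk u < O.rk v → c u < c v := fun u hu v h =>
    Finset.card_lt_card ⟨fun x hx => by
      rw [Finset.mem_filter] at hx ⊢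
      exact ⟨hx.1, hx.2.trans h⟩, fun hs => lt_irrefl _ (Finset.mem_filter.1
        (hs (Finset.mem_filter.2 ⟨Finset.mem_range.2 hu, h⟩))).2⟩
  refine ⟨fun v => c v + 1, fun v hv => ⟨by omega, ?_⟩, fun u hu v _ h => ?_, fun t => ?_⟩
  · have : c v < (Finset.range O.n).card := Finset.card_lt_card ⟨Finset.filter_subset _ _,
      fun hs => lt_irrefl _ (Finset.mem_filter.1 (hs hv)).2⟩
    rw [Finset.card_range] at this
    omega
  · have := hc u (Finset.mem_range.1 hu) v (O.mono h)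
    omega
  · refine (Finset.card_le_one.2 fun a ha b hb => ?_).trans (by norm_num)
    simp only [Finset.mem_filter, Finset.mem_range] at ha hb
    refine O.inj ha.1 hb.1 ?_
    rcases lt_trichotomy (O.rk a) (O.rk b) with h | h | h
    · have := hc a ha.1 b h; omega
    · exact h
    · have := hc b hb.1 a h; omega

variable (G : Prec) (r : List Bool)

theorem lead_enc : lead (G.enc ++ r) = G.n := by
  have : ∀ n (x : List Bool), lead (List.replicate n true ++ false :: x) = n := fun n x => by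
    induction n with
    | zero => rfl
    | succ n ih => simp [List.replicate_succ, lead, ih]
  simpa [Prec.enc, unary] using this G.n _

theorem length_mat {n m : ℕ} (f : Fin m → Fin n → Bool) :
    (List.ofFn fun u => List.ofFn (f u)).flatten.length = m * n := by
  simp [length_flatten, map_ofFn, Function.comp_def, sum_ofFn]

theorem getD_mat {n : ℕ} : ∀ {m : ℕ} (f : Fin m → Fin n → Bool) (r : List Bool) (u : Fin m)
    (v : Fin n), ((List.ofFn fun u => List.ofFn (f u)).flatten ++ r).getD (u * n + v) false = f u v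
  | 0, _, _, u, _ => u.elim0
  | m + 1, f, r, u, v => by
    rw [List.ofFn_succ, flatten_cons, append_assoc]
    cases u using Fin.cases with
    | zero => simp [getElem?_append_left]
    | succ u =>
      rw [← getD_mat (fun i => f i.succ) r u v, getD_append_right _ _ _ _ (by
        simp only [length_ofFn, Fin.val_succ]; nlinarith)]
      congr 1
      simp only [length_ofFn, Fin.val_succ]
      rw [Nat.add_mul]
      omega

theorem arcb_enc (u v : Fin G.n) : arcb G.n (G.enc ++ r) u v = G.arc u v := by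
  rw [arcb, Prec.enc, append_assoc, getD_append_right _ _ _ _ (by simp [unary]),
    ← getD_mat G.arc r u v]
  congr 1
  simp [unary]

theorem drop_enc : (G.enc ++ r).drop (G.n + 1 + G.n * G.n) = r :=
  drop_left' (by rw [Prec.enc, length_append, length_mat]; simp [unary])

def Prec.Arc (u v : ℕ) : Prop := ∃ hu hv, G.arc ⟨u, hu⟩ ⟨v, hv⟩ = true

def Prec.TG (u v : ℕ) : Prop := Relation.TransGen G.Arc u v

theorem ltb_clo (k u v : ℕ) : ltb G.n (clo G.n (G.enc ++ r) (k + 1)) u v = true ↔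
    G.Arc u v ∨ ∃ w, ltb G.n (clo G.n (G.enc ++ r) k) u w = true ∧ G.Arc w v := by
  have ha : ∀ {a b : ℕ}, a < G.n → b < G.n → (arcb G.n (G.enc ++ r) a b = true ↔ G.Arc a b) :=
    fun {a b} h1 h2 => by
      rw [arcb_enc G r ⟨a, h1⟩ ⟨b, h2⟩]
      exact ⟨fun h => ⟨h1, h2, h⟩, fun ⟨_, _, h⟩ => h⟩
  by_cases h : u < G.n ∧ v < G.n
  · have h1 : u * G.n + v < G.n * G.n := by nlinarith [h.1, h.2]
    have h2 : (u * G.n + v) / G.n = u := by
      rw [Nat.add_comm, Nat.add_mul_div_right _ _ (by omega), Nat.div_eq_of_lt h.2, Nat.zero_add]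
    have h3 : (u * G.n + v) % G.n = v := by
      rw [Nat.add_comm, Nat.add_mul_mod_self_right, Nat.mod_eq_of_lt h.2]
    rw [ltb, clo, Function.iterate_succ_apply', cstep, getD_map_range _ h1, h2, h3,
      Nat.ble_eq_true_of_le h.1, Nat.ble_eq_true_of_le h.2]
    have : ∀ b : Bool, (true && (true && Nat.ble 1 (cond b 1 0))) = b := by decide
    rw [this, Bool.or_eq_true, ha h.1 h.2, any_eq_true]
    refine or_congr_right ⟨fun ⟨w, a, b⟩ => ?_, fun ⟨w, a, b⟩ => ?_⟩
    · rw [Bool.and_eq_true, ha (mem_range.1 a) h.2] at b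
      exact ⟨w, b⟩
    · exact ⟨w, mem_range.2 b.1, Bool.and_eq_true_iff.2 ⟨a, (ha b.1 h.2).2 b⟩⟩
  · refine ⟨fun g => (h (ltb_bd g)).elim, ?_⟩
    rintro (⟨a, b, -⟩ | ⟨w, a, -, b, -⟩)
    · exact (h ⟨a, b⟩).elim
    · exact (h ⟨(ltb_bd a).1, b⟩).elim

theorem tg_of_ltb : ∀ k u v, ltb G.n (clo G.n (G.enc ++ r) k) u v = true → G.TG u v
  | 0, u, v, h => by simp [ltb, clo] at h
  | k + 1, u, v, h => by
    rcases (ltb_clo G r k u v).1 h with a | ⟨w, a, b⟩
    · exact .single a
    · exact (tg_of_ltb k u w a).tail b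

variable {G}

theorem Prec.TG.lift {u v : ℕ} (h : G.TG u v) :
    ∃ hu hv, Relation.TransGen (fun a b => G.arc a b = true) ⟨u, hu⟩ ⟨v, hv⟩ := by
  induction h with
  | single h => exact ⟨h.1, h.2.1, .single h.2.2⟩
  | tail _ h ih => exact ⟨ih.1, h.2.1, ih.2.2.tail h.2.2⟩

theorem ltb_iff (hG : G.Acyclic) (u v : ℕ) :
    ltb G.n (clo G.n (G.enc ++ r) G.n) u v = true ↔ G.TG u v := by
  classical
  refine ⟨tg_of_ltb G r _ u v, fun h => ?_⟩
  let c : ℕ → ℕ := fun v => ((Finset.range G.n).filter fun u => G.TG u v).card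
  have hc : ∀ a b, G.TG a b → c a < c b := fun a b g =>
    Finset.card_lt_card ⟨fun x hx => by
      rw [Finset.mem_filter] at hx ⊢
      exact ⟨hx.1, Relation.TransGen.trans hx.2 g⟩, fun hs => hG _ (Finset.mem_filter.1
        (hs (Finset.mem_filter.2 ⟨Finset.mem_range.2 g.lift.1, g⟩))).2.lift.2.2⟩
  have key : ∀ k, c v - c u ≤ k → ltb G.n (clo G.n (G.enc ++ r) k) u v = true := by
    induction h with
    | single g =>
      intro k hk
      have := hc _ _ (.single g)
      obtain ⟨k, rfl⟩ : ∃ j, k = j + 1 := ⟨k - 1, by omega⟩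
      exact (ltb_clo G r k _ _).2 (Or.inl g)
    | tail g1 g ih =>
      intro k hk
      have := hc _ _ (.single g)
      have := hc _ _ g1
      obtain ⟨k, rfl⟩ : ∃ j, k = j + 1 := ⟨k - 1, by omega⟩
      exact (ltb_clo G r k _ _).2 (Or.inr ⟨_, ih k (by omega), g⟩)
  refine key _ ((Nat.sub_le _ _).trans ?_)
  simpa using Finset.card_filter_le (Finset.range G.n) fun u => G.TG u v

/-- The precedence order of an acyclic graph, as computed from its code. -/
def ordOf (hG : G.Acyclic) : Ord :=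
  mkOrd G.n (clo G.n (G.enc ++ r) G.n)
    (fun u v w a b => (ltb_iff r hG u w).2
      (Relation.TransGen.trans ((ltb_iff r hG u v).1 a) ((ltb_iff r hG v w).1 b)))
    fun u a => hG _ ((ltb_iff r hG u u).1 a).lift.2.2

theorem isSched_of {hG : G.Acyclic} {l T : ℕ} {f : ℕ → ℕ}
    (h : (ordOf r hG).Sch (Finset.range G.n) l f) (hl : l ≤ T) : G.IsSched T fun v => f v := by
  have hm : ∀ v : Fin G.n, v.1 ∈ Finset.range G.n := fun v => Finset.mem_range.2 v.2
  refine ⟨fun v => ⟨(h.rng v (hm v)).1, (h.rng v (hm v)).2.trans hl⟩, fun t => ?_,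
    fun u v e => h.ord u (hm u) v (hm v) ((ltb_iff r hG u v).2 (.single ⟨u.2, v.2, e⟩))⟩
  refine le_trans (Finset.card_le_card_of_injOn Fin.val (fun v hv => ?_)
    Fin.val_injective.injOn) (h.cap t)
  simp only [Finset.coe_filter, Set.mem_setOf_eq] at hv ⊢
  exact ⟨hm v, hv.2⟩

theorem sch_of (hG : G.Acyclic) {T : ℕ} {τ : Fin G.n → ℕ} (h : G.IsSched T τ) :
    ∃ f, (ordOf r hG).Sch (Finset.range G.n) T f := by
  refine ⟨fun v => if hv : v < G.n then τ ⟨v, hv⟩ else 0, fun v hv => ?_, fun u _ v _ e => ?_,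
    fun t => ?_⟩
  · rw [dif_pos (Finset.mem_range.1 hv)]
    exact h.1 _
  · have e' : G.TG u v := (ltb_iff r hG u v).1 e
    clear e
    have : ∀ a b, G.Arc a b → (if hv : a < G.n then τ ⟨a, hv⟩ else 0) <
        if hv : b < G.n then τ ⟨b, hv⟩ else 0 := fun a b ⟨h1, h2, g⟩ => by
      rw [dif_pos h1, dif_pos h2]
      exact h.2.2 _ _ g
    induction e' with
    | single g => exact this _ _ g
    | tail g1 g ih => exact (ih (Finset.mem_range.2 g.1)).trans (this _ _ g)
  · refine le_trans (Finset.card_le_card fun v hv => ?_)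
      ((Finset.card_image_le (f := Fin.val)).trans (h.2.1 t))
    rw [Finset.mem_filter, Finset.mem_range] at hv
    have := hv.2
    rw [dif_pos hv.1] at this
    exact Finset.mem_image.2 ⟨⟨v, hv.1⟩, by simp [this], rfl⟩

theorem table_eq : table (G.enc ++ r) = tab G.n (clo G.n (G.enc ++ r) G.n) G.n := by
  rw [table, lead_enc]

theorem table_sound (hG : G.Acyclic) {e : Ent} (he : e ∈ table (G.enc ++ r))
    (hf : full G.n e.2 = true) {T : ℕ} (hT : e.1 ≤ T) : G.IsSched T fun v => e.2.getD v 0 := by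
  rw [table_eq] at he
  have : (ordOf r hG).Sch (supp G.n e.2) e.1 (e.2.getD · 0) := valid_iff.1 (tab_sound he).2
  rw [full_iff.1 hf] at this
  exact isSched_of r this hT

theorem table_complete (hG : G.Acyclic) (hn : 1 ≤ G.n) {T : ℕ} (hT : 1 ≤ T)
    (h : G.n ≤ T ∨ ∃ τ, G.IsSched T τ) :
    ∃ e ∈ table (G.enc ++ r), full G.n e.2 = true ∧ e.1 ≤ min T G.n := by
  rw [table_eq]
  by_cases g : G.n ≤ T
  · obtain ⟨f, hf⟩ := (ordOf r hG).exists_sch
    obtain ⟨τ, a, b⟩ := tab_full hn le_rfl hf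
    exact ⟨_, a, b, le_min g le_rfl⟩
  · obtain ⟨τ, h⟩ := h.resolve_left g
    obtain ⟨f, hf⟩ := sch_of r hG h
    obtain ⟨τ, a, b⟩ := tab_full hT (by omega) hf
    exact ⟨_, a, b, le_min le_rfl (by dsimp only; omega)⟩

theorem Prec.IsSched.pos {T : ℕ} {τ : Fin G.n → ℕ} (h : G.IsSched T τ) (hn : 1 ≤ G.n) : 1 ≤ T :=
  (h.1 ⟨0, hn⟩).1.trans (h.1 ⟨0, hn⟩).2

theorem decS_iff (hG : G.Acyclic) (hn : 1 ≤ G.n) (T : ℕ) :
    decS (encInst (G, T)) = true ↔ ∃ τ, G.IsSched T τ := by
  rw [encInst, decS, lead_enc, drop_enc, valB_bits, decT, any_eq_true]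
  constructor
  · rintro ⟨e, he, h⟩
    rw [Bool.and_eq_true, Nat.ble_eq] at h
    exact ⟨_, table_sound _ hG he h.1 (h.2.trans (min_le_left _ _))⟩
  · rintro ⟨τ, h⟩
    obtain ⟨e, a, b, c⟩ := table_complete T.bits hG hn (h.pos hn) (Or.inr ⟨τ, h⟩)
    exact ⟨e, a, by rw [Bool.and_eq_true, Nat.ble_eq]; exact ⟨b, c⟩⟩

theorem optS_spec (hG : G.Acyclic) (hn : 1 ≤ G.n) :
    ∃ T, (G.IsSched T fun v => (optS G.enc).getD v 0) ∧ ∀ T' τ, G.IsSched T' τ → T ≤ T' := by
  rw [← append_nil G.enc, optS, lead_enc]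
  obtain ⟨e, a, b, -⟩ := table_complete [] hG hn hn (Or.inl le_rfl)
  obtain ⟨h1, h2, h3⟩ := best_spec ⟨e, a, b⟩
  refine ⟨_, table_sound _ hG h1 h2 le_rfl, fun T' τ h => ?_⟩
  obtain ⟨e', a', b', c'⟩ := table_complete [] hG hn (h.pos hn) (Or.inr ⟨τ, h⟩)
  exact (h3 e' a' b').trans (c'.trans (min_le_left _ _))

theorem dec_tm : ∃ h : Turing.TM2ComputableInPolyTime encInst (fun b : Bool => [b])
    fun I => decS (encInst I), ∀ k, Finite (h.tm.Γ k) :=
  PT.toTM2 encInst _ _ (Φ := fun s => cond (decS s) [true] [false])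
    (PT.cond' pt_decS (PT.const _) (PT.const _)) fun I => by cases decS (encInst I) <;> rfl

theorem opt_tm : ∃ h : Turing.TM2ComputableInPolyTime Prec.enc encList fun G => optS G.enc,
    ∀ k, Finite (h.tm.Γ k) :=
  PT.toTM2 Prec.enc encList _
    (Φ := fun s => (range (optS s).length).flatMap fun i => unary ((optS s).getD i 0))
    (PT.flatMapRange (pt_length pt_optS) ((PT.replicate (pt_getD (pt_optS.comp (PT.fst PT.id'))
      (PT.snd PT.id') (PT.const 0)) true).append (PT.const [false]))) fun G => by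
      conv_rhs => rw [encList, ← map_range_getD (optS G.enc) 0, flatMap_map]

end Vale.Agent.P324
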