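import Mathlib

/-! Staircase descriptions of down-sets and the choice of the next pinned sink. -/

namespace Vale.Agent.P324

open Finset

/-- A strict order on `0, …, n - 1` with an injective monotone rank. -/
structure Ord where
  n : ℕ
  lt : ℕ → ℕ → Prop
  rk : ℕ → ℕ
  N : ℕ
  bd : ∀ {u v}, lt u v → u < n ∧ v < n
  tr : ∀ {u v w}, lt u v → lt v w → lt u w
  mono : ∀ {u v}, lt u v → rk u < rk v
  inj : ∀ {u v}, u < n → v < n → rk u = rk v → u = v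
  top : ∀ {v}, v < n → rk v < N

/-- Three nested down-sets with thresholds. -/
structure St where
  P1 : Set ℕ
  P2 : Set ℕ
  P3 : Set ℕ
  t1 : ℕ
  t2 : ℕ
  t3 : ℕ

namespace Ord

variable (O : Ord)

def Small (A : Finset ℕ) : Prop := A.card ≤ 3 ∧ ∀ a ∈ A, a < O.n

def pred (A : Finset ℕ) : Set ℕ := {v | ∃ y ∈ A, O.lt v y}

def succ (A : Finset ℕ) : Set ℕ := {v | ∃ y ∈ A, O.lt y v}

def IsP (P : Set ℕ) : Prop := P = Set.univ ∨ ∃ A, O.Small A ∧ P = O.pred A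

def IsL (L : Set ℕ) : Prop := L = Set.univ ∨ ∃ A, O.Small A ∧ L = O.succ A

def S (σ : St) : Set ℕ :=
  {v | (v ∈ σ.P1 ∧ O.rk v < σ.t1) ∨ (v ∈ σ.P2 ∧ O.rk v < σ.t2) ∨ (v ∈ σ.P3 ∧ O.rk v < σ.t3)}

structure Ok (σ : St) : Prop where
  p1 : O.IsP σ.P1
  p2 : O.IsP σ.P2
  p3 : O.IsP σ.P3
  s2 : σ.P2 ⊆ σ.P1
  s3 : σ.P3 ⊆ σ.P2
  l1 : σ.t1 ≤ σ.t2
  l2 : σ.t2 ≤ σ.t3
  l3 : σ.t3 ≤ O.N

def InvA (σ : St) (Pi : Finset ℕ) : Prop :=
  ∀ y ∈ Pi, (y ∉ σ.P2 → O.rk y ≤ σ.t1) ∧ (y ∉ σ.P3 → O.rk y ≤ σ.t2)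

def InvH (σ : St) (Pi : Finset ℕ) : Prop :=
  σ.P3 ⊆ O.pred Pi ∧ ((∀ y ∈ Pi, y ∉ σ.P2 → O.rk y ≤ σ.t1) ∨ σ.P2 ⊆ O.pred Pi)

def Inv (σ : St) (Pi : Finset ℕ) : Prop := O.InvA σ Pi ∨ O.InvH σ Pi

variable {O}

theorem IsP.down {P : Set ℕ} (h : O.IsP P) {u v : ℕ} (huv : O.lt u v) (hv : v ∈ P) : u ∈ P := by
  rcases h with rfl | ⟨A, -, rfl⟩
  · trivial
  · obtain ⟨y, hy, h⟩ := hv
    exact ⟨y, hy, O.tr huv h⟩

theorem IsL.up {L : Set ℕ} (h : O.IsL L) {u v : ℕ} (huv : O.lt u v) (hv : u ∈ L) : v ∈ L := by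
  rcases h with rfl | ⟨A, -, rfl⟩
  · trivial
  · obtain ⟨y, hy, h⟩ := hv
    exact ⟨y, hy, O.tr h huv⟩

theorem isP_empty : O.IsP ∅ := Or.inr ⟨∅, ⟨by simp, by simp⟩, by ext; simp [pred]⟩

theorem Ok.down {σ : St} (h : O.Ok σ) {u v : ℕ} (huv : O.lt u v) (hv : v ∈ O.S σ) : u ∈ O.S σ := by
  have := O.mono huv
  rcases hv with ⟨a, b⟩ | ⟨a, b⟩ | ⟨a, b⟩
  · exact Or.inl ⟨h.p1.down huv a, by omega⟩
  · exact Or.inr (Or.inl ⟨h.p2.down huv a, by omega⟩)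
  · exact Or.inr (Or.inr ⟨h.p3.down huv a, by omega⟩)

theorem Ok.base {σ : St} (h : O.Ok σ) {v : ℕ} (hv : v ∈ O.S σ) : v ∈ σ.P1 := by
  rcases hv with ⟨a, -⟩ | ⟨a, -⟩ | ⟨a, -⟩
  · exact a
  · exact h.s2 a
  · exact h.s2 (h.s3 a)

variable (O)

/-- Hypotheses of the choice step. -/
structure Pre (W Pi : Finset ℕ) (σ : St) (L : Set ℕ) : Prop where
  ok : O.Ok σ
  sub : ∀ v ∈ W, v < O.n
  pi : Pi ⊆ W
  card : Pi.card ≤ 2
  inS : ∀ v ∈ W, v ∉ Pi → v ∈ O.S σ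
  out : ∀ y ∈ Pi, y ∉ O.S σ
  base : ∀ y ∈ Pi, y ∈ σ.P1
  sink : ∀ y ∈ Pi, ∀ v ∈ W, ¬ O.lt y v
  predS : ∀ u ∈ O.pred Pi, u ∈ L → u ∈ O.S σ
  ex : ∃ w ∈ W, w ∉ Pi ∧ w ∉ O.pred Pi

/-- Conclusion of the choice step. -/
def Post (W Pi : Finset ℕ) (T L : Set ℕ) : Prop :=
  ∃ x ∈ W, x ∉ Pi ∧ (∀ v ∈ W, ¬ O.lt x v) ∧ ∃ σ', O.Ok σ' ∧
    (∀ v ∈ W, v ∉ Pi → v ≠ x → v ∈ O.S σ') ∧ (∀ v ∈ O.S σ', v ∈ L → v ∈ T) ∧ x ∉ O.S σ' ∧
    (∀ y ∈ Pi, y ∉ O.S σ') ∧ x ∈ σ'.P1 ∧ (∀ y ∈ Pi, y ∈ σ'.P1) ∧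
    O.Inv σ' (insert x Pi) ∧ O.Inv σ' {x}

variable {O} {W Pi : Finset ℕ} {σ : St} {L : Set ℕ}

theorem pick (hW : ∀ v ∈ W, v < O.n) (p : ℕ → Prop) (h : ∃ w ∈ W, p w) :
    ∃ x ∈ W, p x ∧ ∀ v ∈ W, p v → v ≠ x → O.rk v < O.rk x := by
  classical
  obtain ⟨w, hw, hp⟩ := h
  obtain ⟨x, hx, hm⟩ := (W.filter p).exists_max_image O.rk ⟨w, mem_filter.2 ⟨hw, hp⟩⟩
  rw [mem_filter] at hx
  refine ⟨x, hx.1, hx.2, fun v hv hpv hne => lt_of_le_of_ne (hm v (mem_filter.2 ⟨hv, hpv⟩)) ?_⟩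
  exact fun e => hne (O.inj (hW v hv) (hW x hx.1) e)

theorem Pre.push (h : O.Pre W Pi σ L) (hH : O.InvH σ Pi) : O.Post W Pi (O.S σ) L := by
  classical
  obtain ⟨w, hw, ⟨hw1, hw2⟩, hm⟩ := pick h.sub (fun v => v ∉ Pi ∧ v ∉ O.pred Pi) h.ex
  have hs : ∀ v ∈ W, ¬ O.lt w v := fun v hv hlt => by
    have h1 := O.mono hlt
    by_cases h2 : v ∈ Pi
    · exact hw2 ⟨v, h2, hlt⟩
    · by_cases h3 : v ∈ O.pred Pi
      · obtain ⟨y, hy, h4⟩ := h3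
        exact hw2 ⟨y, hy, O.tr hlt h4⟩
      · have := hm v hv ⟨h2, h3⟩ (by rintro rfl; omega)
        omega
  have hwS := h.inS w hw hw1
  have hw3 : w ∉ σ.P3 := fun e => hw2 (hH.1 e)
  have hN := O.top (h.sub w hw)
  have hanti : ∀ y ∈ Pi, y ∉ O.pred Pi := fun y hy ⟨z, hz, e⟩ => h.sink y hy z (h.pi hz) e
  have ok := h.ok
  have l1 := ok.l1
  have l2 := ok.l2
  have l3 := ok.l3
  refine ⟨w, hw, hw1, hs, ?_⟩
  by_cases hj : O.rk w < σ.t1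
  · refine ⟨⟨σ.P1, O.pred Pi, ∅, O.rk w, O.N, O.N⟩, ⟨ok.p1,
      Or.inr ⟨Pi, ⟨by have := h.card; omega, fun a ha => h.sub a (h.pi ha)⟩, rfl⟩, isP_empty,
      fun v ⟨y, hy, e⟩ => ok.p1.down e (h.base y hy), Set.empty_subset _, hN.le, le_rfl, le_rfl⟩,
      fun v hv h1 h2 => ?_, ?_, ?_, fun y hy => ?_, ok.base hwS, h.base, Or.inr ⟨Set.empty_subset _,
      Or.inr fun v ⟨y, hy, e⟩ => ⟨y, mem_insert_of_mem hy, e⟩⟩, Or.inl fun y hy => ?_⟩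
    · by_cases h3 : v ∈ O.pred Pi
      · exact Or.inr (Or.inl ⟨h3, O.top (h.sub v hv)⟩)
      · exact Or.inl ⟨ok.base (h.inS v hv h1), hm v hv ⟨h1, h3⟩ h2⟩
    · rintro v (⟨a, b⟩ | ⟨a, -⟩ | ⟨a, -⟩) hL
      · exact Or.inl ⟨a, by dsimp only at b; omega⟩
      · exact h.predS v a hL
      · exact a.elim
    · rintro (⟨-, b⟩ | ⟨a, -⟩ | ⟨a, -⟩)
      · exact lt_irrefl _ b
      · exact hw2 a
      · exact a.elim
    · rintro (⟨a, b⟩ | ⟨a, -⟩ | ⟨a, -⟩)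
      · exact h.out y hy (Or.inl ⟨a, by dsimp only at b; omega⟩)
      · exact hanti y hy a
      · exact a.elim
    · rw [mem_singleton.1 hy]
      exact ⟨fun _ => le_rfl, fun _ => hN.le⟩
  · have hw4 : w ∈ σ.P2 ∧ O.rk w < σ.t2 := by
      rcases hwS with ⟨-, b⟩ | a | ⟨a, -⟩
      · exact (hj b).elim
      · exact a
      · exact (hw3 a).elim
    have hA : ∀ y ∈ Pi, y ∉ σ.P2 → O.rk y ≤ σ.t1 := by
      rcases hH.2 with a | a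
      · exact a
      · exact (hw2 (a hw4.1)).elim
    have hsub : O.pred (Pi.filter (· ∈ σ.P2)) ⊆ O.pred Pi :=
      fun v ⟨y, hy, e⟩ => ⟨y, (mem_filter.1 hy).1, e⟩
    refine ⟨⟨σ.P1, σ.P2, O.pred (Pi.filter (· ∈ σ.P2)), σ.t1, O.rk w, O.N⟩, ⟨ok.p1, ok.p2,
      Or.inr ⟨_, ⟨(card_filter_le _ _).trans (by have := h.card; omega),
        fun a ha => h.sub a (h.pi (mem_filter.1 ha).1)⟩, rfl⟩, ok.s2,
      fun v ⟨y, hy, e⟩ => ok.p2.down e (mem_filter.1 hy).2, by dsimp only; omega, hN.le, le_rfl⟩,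
      fun v hv h1 h2 => ?_, ?_, ?_, fun y hy => ?_, ok.base hwS, h.base,
      Or.inr ⟨fun v ⟨y, hy, e⟩ => ⟨y, mem_insert_of_mem (mem_filter.1 hy).1, e⟩,
      Or.inl fun y hy h2 => ?_⟩, Or.inl fun y hy => ?_⟩
    · have hvS := h.inS v hv h1
      by_cases h4 : O.rk v < σ.t1
      · exact Or.inl ⟨ok.base hvS, h4⟩
      have h5 : v ∈ σ.P2 := by
        rcases hvS with ⟨-, b⟩ | ⟨a, -⟩ | ⟨a, -⟩
        · exact (h4 b).elim
        · exact a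
        · exact ok.s3 a
      by_cases h3 : v ∈ O.pred Pi
      · obtain ⟨y, hy, e⟩ := h3
        by_cases h6 : y ∈ σ.P2
        · exact Or.inr (Or.inr ⟨⟨y, mem_filter.2 ⟨hy, h6⟩, e⟩, O.top (h.sub v hv)⟩)
        · have := hA y hy h6
          have := O.mono e
          omega
      · exact Or.inr (Or.inl ⟨h5, hm v hv ⟨h1, h3⟩ h2⟩)
    · rintro v (a | ⟨a, b⟩ | ⟨a, -⟩) hL
      · exact Or.inl a
      · exact Or.inr (Or.inl ⟨a, by dsimp only at b; omega⟩)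
      · exact h.predS v (hsub a) hL
    · rintro (⟨-, b⟩ | ⟨-, b⟩ | ⟨a, -⟩)
      · exact hj b
      · exact lt_irrefl _ b
      · exact hw2 (hsub a)
    · rintro (a | ⟨a, b⟩ | ⟨a, -⟩)
      · exact h.out y hy (Or.inl a)
      · exact h.out y hy (Or.inr (Or.inl ⟨a, by dsimp only at b; omega⟩))
      · exact hanti y hy (hsub a)
    · rcases mem_insert.1 hy with rfl | hy
      · exact (h2 hw4.1).elim
      · exact hA y hy h2
    · rw [mem_singleton.1 hy]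
      exact ⟨fun e => (e hw4.1).elim, fun _ => le_rfl⟩

theorem Post.mono {T T' : Set ℕ} (h : O.Post W Pi T L) (hT : T ⊆ T') : O.Post W Pi T' L := by
  obtain ⟨x, a, b, c, σ', d, e, f, g⟩ := h
  exact ⟨x, a, b, c, σ', d, e, fun v hv hL => hT (f v hv hL), g⟩

theorem Pre.merge (h : O.Pre W Pi σ L) {σ' : St} (ok : O.Ok σ') (hS : O.S σ' ⊆ O.S σ)
    (hW : ∀ v ∈ W, v ∉ Pi → v ∈ O.S σ') (hb : ∀ y ∈ Pi, y ∈ σ'.P1) (hH : O.InvH σ' Pi)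
    (hd : ∀ u ∈ O.pred Pi, u ∈ L → u ∈ W) : O.Post W Pi (O.S σ) L :=
  (Pre.push ⟨ok, h.sub, h.pi, h.card, hW, fun y hy e => h.out y hy (hS e), hb, h.sink,
    fun u hu hL => hW u (hd u hu hL) fun e => by
      obtain ⟨z, hz, e'⟩ := hu
      exact h.sink u e z (h.pi hz) e', h.ex⟩ hH).mono hS

theorem Pre.layer (h : O.Pre W Pi σ L) {Q Q' : Set ℕ} {a : ℕ} (hQ' : O.IsP Q')
    (h1 : ∀ v ∈ O.S σ, a ≤ O.rk v → v ∈ Q) (h3 : ∀ y ∈ Pi, y ∈ Q' ∨ O.rk y ≤ a)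
    (hex : ∃ w ∈ W, w ∉ Pi ∧ w ∈ Q ∧ w ∉ Q' ∧ a ≤ O.rk w) :
    ∃ x ∈ W, (x ∉ Pi ∧ x ∈ Q ∧ x ∉ Q' ∧ a ≤ O.rk x) ∧ (∀ v ∈ W, ¬ O.lt x v) ∧
      ∀ v ∈ W, v ∉ Pi → v ≠ x → v ∈ Q → v ∉ Q' → O.rk v < O.rk x := by
  obtain ⟨x, hx, hp, hm⟩ := pick h.sub (fun w => w ∉ Pi ∧ w ∈ Q ∧ w ∉ Q' ∧ a ≤ O.rk w) hex
  have ha := hp.2.2.2
  refine ⟨x, hx, hp, fun v hv hlt => ?_, fun v hv b c d e => ?_⟩
  · have h4 := O.mono hlt
    have h5 : v ∉ Q' := fun e => hp.2.2.1 (hQ'.down hlt e)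
    by_cases h2 : v ∈ Pi
    · rcases h3 v h2 with e | e
      · exact h5 e
      · omega
    · have := hm v hv ⟨h2, h1 v (h.inS v hv h2) (by omega), h5, by omega⟩ (by rintro rfl; omega)
      omega
  · by_cases f : a ≤ O.rk v
    · exact hm v hv ⟨b, d, e, f⟩ c
    · omega

theorem Pre.step (h : O.Pre W Pi σ L) (hI : O.Inv σ Pi) (hd : ∀ u ∈ O.pred Pi, u ∈ L → u ∈ W) :
    O.Post W Pi (O.S σ) L := by
  classical
  rcases hI with hA | hH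
  swap
  · exact h.push hH
  have ok := h.ok
  have l1 := ok.l1
  have l2 := ok.l2
  have l3 := ok.l3
  by_cases f1 : ∀ y ∈ Pi, y ∈ σ.P2
  · by_cases e : ∃ w ∈ W, w ∉ Pi ∧ w ∈ σ.P1 ∧ w ∉ σ.P2 ∧ 0 ≤ O.rk w
    · obtain ⟨x, hx, ⟨a1, a2, a3, -⟩, hs, hm⟩ := h.layer ok.p2 (fun v hv _ => ok.base hv)
        (fun y hy => Or.inl (f1 y hy)) e
      have hx1 : O.rk x < σ.t1 := by
        rcases h.inS x hx a1 with ⟨-, b⟩ | ⟨a, -⟩ | ⟨a, -⟩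
        · exact b
        · exact (a3 a).elim
        · exact (a3 (ok.s3 a)).elim
      have hT : O.S ⟨σ.P1, σ.P2, σ.P3, O.rk x, σ.t2, σ.t3⟩ ⊆ O.S σ := by
        rintro v (⟨a, b⟩ | a)
        · exact Or.inl ⟨a, by dsimp only at b; omega⟩
        · exact Or.inr a
      refine ⟨x, hx, a1, hs, ⟨σ.P1, σ.P2, σ.P3, O.rk x, σ.t2, σ.t3⟩,
        ⟨ok.p1, ok.p2, ok.p3, ok.s2, ok.s3, by dsimp only; omega, l2, l3⟩, fun v hv b c => ?_,
        fun v hv _ => hT hv, ?_, fun y hy e => h.out y hy (hT e), a2, h.base,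
        Or.inl fun y hy => ?_, Or.inl fun y hy => ?_⟩
      · by_cases g : v ∈ σ.P2
        · rcases h.inS v hv b with ⟨-, b⟩ | a
          · exact Or.inr (Or.inl ⟨g, by dsimp only; omega⟩)
          · exact Or.inr a
        · exact Or.inl ⟨ok.base (h.inS v hv b), hm v hv b c (ok.base (h.inS v hv b)) g⟩
      · rintro (⟨-, b⟩ | ⟨a, -⟩ | ⟨a, -⟩)
        · exact lt_irrefl _ b
        · exact a3 a
        · exact a3 (ok.s3 a)
      · rcases mem_insert.1 hy with rfl | hy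
        · exact ⟨fun _ => le_rfl, fun _ => by dsimp only; omega⟩
        · exact ⟨fun e => (e (f1 y hy)).elim, (hA y hy).2⟩
      · rw [mem_singleton.1 hy]
        exact ⟨fun _ => le_rfl, fun _ => by dsimp only; omega⟩
    · refine h.merge (σ' := ⟨σ.P2, σ.P3, ∅, σ.t2, σ.t3, σ.t3⟩)
        ⟨ok.p2, ok.p3, isP_empty, ok.s3, Set.empty_subset _, l2, le_rfl, l3⟩ ?_
        (fun v hv b => ?_) f1 ⟨Set.empty_subset _, Or.inl fun y hy => (hA y hy).2⟩ hd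
      · rintro v (a | a | ⟨a, -⟩)
        · exact Or.inr (Or.inl a)
        · exact Or.inr (Or.inr a)
        · exact a.elim
      · rcases h.inS v hv b with ⟨a, c⟩ | a | a
        · refine Or.inl ⟨?_, by dsimp only; omega⟩
          by_contra g
          exact e ⟨v, hv, b, a, g, Nat.zero_le _⟩
        · exact Or.inl a
        · exact Or.inr (Or.inl a)
  by_cases f2 : ∀ y ∈ Pi, y ∈ σ.P2 → y ∈ σ.P3
  · have f2' : ∀ y ∈ Pi, y ∉ σ.P3 → O.rk y ≤ σ.t1 := fun y hy g =>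
      (hA y hy).1 fun e => g (f2 y hy e)
    by_cases e : ∃ w ∈ W, w ∉ Pi ∧ w ∈ σ.P2 ∧ w ∉ σ.P3 ∧ σ.t1 ≤ O.rk w
    · obtain ⟨x, hx, ⟨a1, a2, a3, a4⟩, hs, hm⟩ := h.layer ok.p3 (fun v hv g => by
        rcases hv with ⟨-, b⟩ | ⟨a, -⟩ | ⟨a, -⟩
        · omega
        · exact a
        · exact ok.s3 a)
        (fun y hy => (em (y ∈ σ.P3)).imp id (f2' y hy)) e
      have hx1 : O.rk x < σ.t2 := by
        rcases h.inS x hx a1 with ⟨-, b⟩ | ⟨-, a⟩ | ⟨a, -⟩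
        · omega
        · exact a
        · exact (a3 a).elim
      have hT : O.S ⟨σ.P1, σ.P2, σ.P3, σ.t1, O.rk x, σ.t3⟩ ⊆ O.S σ := by
        rintro v (a | ⟨a, b⟩ | a)
        · exact Or.inl a
        · exact Or.inr (Or.inl ⟨a, by dsimp only at b; omega⟩)
        · exact Or.inr (Or.inr a)
      refine ⟨x, hx, a1, hs, ⟨σ.P1, σ.P2, σ.P3, σ.t1, O.rk x, σ.t3⟩,
        ⟨ok.p1, ok.p2, ok.p3, ok.s2, ok.s3, a4, by dsimp only; omega, l3⟩, fun v hv b c => ?_,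
        fun v hv _ => hT hv, ?_, fun y hy e => h.out y hy (hT e), ok.s2 a2, h.base,
        Or.inl fun y hy => ?_, Or.inl fun y hy => ?_⟩
      · rcases h.inS v hv b with a | ⟨a, d⟩ | a
        · exact Or.inl a
        · by_cases g : v ∈ σ.P3
          · exact Or.inr (Or.inr ⟨g, by dsimp only; omega⟩)
          · exact Or.inr (Or.inl ⟨a, hm v hv b c a g⟩)
        · exact Or.inr (Or.inr a)
      · rintro (⟨-, b⟩ | ⟨-, b⟩ | ⟨a, -⟩)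
        · dsimp only at b; omega
        · exact lt_irrefl _ b
        · exact a3 a
      · rcases mem_insert.1 hy with rfl | hy
        · exact ⟨fun e => (e a2).elim, fun _ => le_rfl⟩
        · exact ⟨(hA y hy).1, fun g => (f2' y hy g).trans a4⟩
      · rw [mem_singleton.1 hy]
        exact ⟨fun e => (e a2).elim, fun _ => le_rfl⟩
    · refine h.merge (σ' := ⟨σ.P1, σ.P3, ∅, σ.t1, σ.t3, σ.t3⟩)
        ⟨ok.p1, ok.p3, isP_empty, ok.s3.trans ok.s2, Set.empty_subset _, l1.trans l2, le_rfl, l3⟩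
        ?_ (fun v hv b => ?_) h.base ⟨Set.empty_subset _, Or.inl f2'⟩ hd
      · rintro v (a | a | ⟨a, -⟩)
        · exact Or.inl a
        · exact Or.inr (Or.inr a)
        · exact a.elim
      · rcases h.inS v hv b with a | ⟨a, c⟩ | a
        · exact Or.inl a
        · by_cases g : v ∈ σ.P3
          · exact Or.inr (Or.inl ⟨g, by dsimp only; omega⟩)
          · refine Or.inl ⟨ok.s2 a, ?_⟩
            by_contra g'
            exact e ⟨v, hv, b, a, g, not_lt.1 g'⟩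
        · exact Or.inr (Or.inl a)
  have f3 : ∀ y ∈ Pi, y ∉ σ.P3 := fun y hy g => by
    push Not at f1 f2
    obtain ⟨a, ha, ha'⟩ := f1
    obtain ⟨b, hb, hb1, hb2⟩ := f2
    have : ({a, b, y} : Finset ℕ) ⊆ Pi := by
      intro z hz
      simp only [mem_insert, mem_singleton] at hz
      rcases hz with rfl | rfl | rfl <;> assumption
    have h1 := card_le_card this
    have h2 := h.card
    rw [card_eq_three.2 ⟨a, b, y, by rintro rfl; exact ha' hb1, by rintro rfl; exact ha' (ok.s3 g),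
      by rintro rfl; exact hb2 g, rfl⟩] at h1
    omega
  by_cases e : ∃ w ∈ W, w ∉ Pi ∧ w ∈ σ.P3 ∧ w ∉ (∅ : Set ℕ) ∧ σ.t2 ≤ O.rk w
  · obtain ⟨x, hx, ⟨a1, a2, -, a4⟩, hs, hm⟩ := h.layer isP_empty (fun v hv g => by
      rcases hv with ⟨-, b⟩ | ⟨-, a⟩ | ⟨a, -⟩
      · omega
      · omega
      · exact a)
      (fun y hy => Or.inr ((hA y hy).2 (f3 y hy))) e
    have hx1 : O.rk x < σ.t3 := by
      rcases h.inS x hx a1 with ⟨-, b⟩ | ⟨-, a⟩ | ⟨-, a⟩ <;> omega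
    have hT : O.S ⟨σ.P1, σ.P2, σ.P3, σ.t1, σ.t2, O.rk x⟩ ⊆ O.S σ := by
      rintro v (a | a | ⟨a, b⟩)
      · exact Or.inl a
      · exact Or.inr (Or.inl a)
      · exact Or.inr (Or.inr ⟨a, by dsimp only at b; omega⟩)
    refine ⟨x, hx, a1, hs, ⟨σ.P1, σ.P2, σ.P3, σ.t1, σ.t2, O.rk x⟩,
      ⟨ok.p1, ok.p2, ok.p3, ok.s2, ok.s3, l1, a4, by dsimp only; omega⟩, fun v hv b c => ?_,
      fun v hv _ => hT hv, ?_, fun y hy e => h.out y hy (hT e), ok.s2 (ok.s3 a2), h.base,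
      Or.inl fun y hy => ?_, Or.inl fun y hy => ?_⟩
    · rcases h.inS v hv b with a | a | ⟨a, -⟩
      · exact Or.inl a
      · exact Or.inr (Or.inl a)
      · exact Or.inr (Or.inr ⟨a, hm v hv b c a id⟩)
    · rintro (⟨-, b⟩ | ⟨-, b⟩ | ⟨-, b⟩) <;> dsimp only at b <;> omega
    · rcases mem_insert.1 hy with rfl | hy
      · exact ⟨fun e => (e (ok.s3 a2)).elim, fun e => (e a2).elim⟩
      · exact hA y hy
    · rw [mem_singleton.1 hy]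
      exact ⟨fun e => (e (ok.s3 a2)).elim, fun e => (e a2).elim⟩
  · refine h.merge (σ' := ⟨σ.P1, σ.P2, ∅, σ.t1, σ.t2, σ.t3⟩)
      ⟨ok.p1, ok.p2, isP_empty, ok.s2, Set.empty_subset _, l1, l2, l3⟩
      ?_ (fun v hv b => ?_) h.base ⟨Set.empty_subset _, Or.inl fun y hy => (hA y hy).1⟩ hd
    · rintro v (a | a | ⟨a, -⟩)
      · exact Or.inl a
      · exact Or.inr (Or.inl a)
      · exact a.elim
    · rcases h.inS v hv b with a | a | ⟨a, c⟩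
      · exact Or.inl a
      · exact Or.inr (Or.inl a)
      · refine Or.inr (Or.inl ⟨ok.s3 a, ?_⟩)
        by_contra g'
        exact e ⟨v, hv, b, a, id, not_lt.1 g'⟩

end Ord

end Vale.Agent.P324
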